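import Crest.Agent.R163.Q3.D.P4.S0
import Crest.Agent.R163.Q3.D.P4.H

set_option autoImplicit false
set_option maxRecDepth 100000
set_option linter.all false
set_option Elab.async false

namespace Crest.Agent.R163.P4

theorem p0_5_7 : Ok2 par f5 ((((((Box3.unit.l 1).r 1).l 0).r 2).l 0).r 1) (selB2 0 (selB2 0 (selB2 0 (selB2 0 (selB2 0 (selB2 0 C0 44611614474438393089090836104458713436258303) 2053500692592590719) 51224) 2319) 48) 8) :=
  Ok2.run hw hf5 ⟨460,19,19,16,13⟩ 58
    (.part 3 (.chk false 0) (.split 2 (.chk false 0) (.split 0 (.split 1 (.split 2 (.chk false 0) (.split 0 (.chk false 0) (.chk false 0))) (.chk false 0)) (.chk false 0))))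
    (by decide +kernel)

theorem p0_5_8 : Ok2 par f5 (((((Box3.unit.l 1).r 1).l 0).r 2).l 0) (selB2 1 (selB2 0 (selB2 0 (selB2 0 (selB2 0 (selB2 0 C0 44611614474438393089090836104458713436258303) 2053500692592590719) 51224) 2319) 48) 8) :=
  Ok2.run hw hf5 ⟨353,19,19,16,13⟩ 58
    (.chk false 0)
    (by decide +kernel)

theorem p0_5_9 : Ok2 par f5 (((((Box3.unit.l 1).r 1).l 0).r 2).r 0) (selB2 0 (selB2 0 (selB2 0 (selB2 0 (selB2 0 C0 44611614474438393089090836104458713436258303) 2053500692592590719) 51224) 2319) 48) :=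
  Ok2.run hw hf5 ⟨344,19,19,16,13⟩ 58
    (.chk false 0)
    (by decide +kernel)

theorem p0_5_10 : Ok2 par f5 ((((Box3.unit.l 1).r 1).l 0).r 2) (selB2 1 (selB2 0 (selB2 0 (selB2 0 (selB2 0 C0 44611614474438393089090836104458713436258303) 2053500692592590719) 51224) 2319) 48) :=
  Ok2.run hw hf5 ⟨331,19,19,16,13⟩ 58
    (.chk false 0)
    (by decide +kernel)

theorem p0_5_11 : Ok2 par f5 ((((Box3.unit.l 1).r 1).l 0).l 2) (selB2 0 (selB2 0 (selB2 0 (selB2 0 C0 44611614474438393089090836104458713436258303) 2053500692592590719) 51224) 2319) :=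
  Ok2.run hw hf5 ⟨351,19,19,16,13⟩ 58
    (.part 15 (.chk false 0) (.split 1 (.chk false 0) (.chk false 0)))
    (by decide +kernel)

theorem p0_5_12 : Ok2 par f5 (((Box3.unit.l 1).r 1).l 0) (selB2 1 (selB2 0 (selB2 0 (selB2 0 C0 44611614474438393089090836104458713436258303) 2053500692592590719) 51224) 2319) :=
  Ok2.run hw hf5 ⟨309,19,19,16,13⟩ 58
    (.chk false 1024)
    (by decide +kernel)

theorem p0_5_13 : Ok2 par f5 ((((((((((Box3.unit.l 1).r 1).r 0).l 2).l 1).r 0).l 2).r 0).r 1).l 2) (selB2 0 (selB2 0 (selB2 0 (selB2 0 (selB2 0 (selB2 0 C0 44611614474438393089090836104458713436258303) 2053500692592590719) 51224) 1784) 14) 2) :=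
  Ok2.run hw hf5 ⟨534,19,19,16,13⟩ 58
    (.split 0 (.chk false 1024) (.split 1 (.split 2 (.split 0 (.chk false 1024) (.split 1 (.chk false 1024) (.chk false 1024))) (.chk false 1024)) (.chk false 1024)))
    (by decide +kernel)

theorem p0_5_14 : Ok2 par f5 ((((((((((Box3.unit.l 1).r 1).r 0).l 2).l 1).r 0).l 2).r 0).r 1).r 2) (selB2 0 (selB2 0 (selB2 0 (selB2 0 (selB2 0 (selB2 0 C0 44611614474438393089090836104458713436258303) 2053500692592590719) 51224) 1784) 14) 2) :=
  Ok2.run hw hf5 ⟨441,19,19,16,13⟩ 58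
    (.chk false 1024)
    (by decide +kernel)

theorem p0_5_15 : Ok2 par f5 (((((((((Box3.unit.l 1).r 1).r 0).l 2).l 1).r 0).l 2).r 0).l 1) (selB2 0 (selB2 0 (selB2 0 (selB2 0 (selB2 0 (selB2 0 C0 44611614474438393089090836104458713436258303) 2053500692592590719) 51224) 1784) 14) 2) :=
  Ok2.run hw hf5 ⟨430,19,19,16,13⟩ 58
    (.chk false 1024)
    (by decide +kernel)

theorem p0_5_16 : Ok2 par f5 ((((((((Box3.unit.l 1).r 1).r 0).l 2).l 1).r 0).l 2).l 0) (selB2 0 (selB2 0 (selB2 0 (selB2 0 (selB2 0 (selB2 0 C0 44611614474438393089090836104458713436258303) 2053500692592590719) 51224) 1784) 14) 2) :=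
  Ok2.run hw hf5 ⟨407,19,19,16,13⟩ 58
    (.chk false 1024)
    (by decide +kernel)

theorem p0_5_17 : Ok2 par f5 (((((((Box3.unit.l 1).r 1).r 0).l 2).l 1).r 0).r 2) (selB2 0 (selB2 0 (selB2 0 (selB2 0 (selB2 0 (selB2 0 C0 44611614474438393089090836104458713436258303) 2053500692592590719) 51224) 1784) 14) 2) :=
  Ok2.run hw hf5 ⟨385,19,19,16,13⟩ 58
    (.chk false 1024)
    (by decide +kernel)

theorem p0_5_18 : Ok2 par f5 ((((((Box3.unit.l 1).r 1).r 0).l 2).l 1).r 0) (selB2 1 (selB2 0 (selB2 0 (selB2 0 (selB2 0 (selB2 0 C0 44611614474438393089090836104458713436258303) 2053500692592590719) 51224) 1784) 14) 2) :=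
  Ok2.run hw hf5 ⟨373,19,19,16,13⟩ 58
    (.chk false 0)
    (by decide +kernel)

theorem p0_5_19 : Ok2 par f5 ((((((Box3.unit.l 1).r 1).r 0).l 2).l 1).l 0) (selB2 0 (selB2 0 (selB2 0 (selB2 0 (selB2 0 C0 44611614474438393089090836104458713436258303) 2053500692592590719) 51224) 1784) 14) :=
  Ok2.run hw hf5 ⟨384,19,19,16,13⟩ 58
    (.part 1 (.chk false 1024) (.split 1 (.chk false 0) (.chk false 0)))
    (by decide +kernel)

theorem p0_5_20 : Ok2 par f5 (((((Box3.unit.l 1).r 1).r 0).l 2).l 1) (selB2 1 (selB2 0 (selB2 0 (selB2 0 (selB2 0 C0 44611614474438393089090836104458713436258303) 2053500692592590719) 51224) 1784) 14) :=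
  Ok2.run hw hf5 ⟨351,19,19,16,13⟩ 58
    (.chk false 0)
    (by decide +kernel)

theorem p0_5_21 : Ok2 par f5 (((((Box3.unit.l 1).r 1).r 0).l 2).r 1) (selB2 0 (selB2 0 (selB2 0 (selB2 0 C0 44611614474438393089090836104458713436258303) 2053500692592590719) 51224) 1784) :=
  Ok2.run hw hf5 ⟨383,19,19,16,13⟩ 58
    (.part 27 (.chk false 1024) (.split 2 (.split 1 (.chk false 0) (.chk false 0)) (.chk false 0)))
    (by decide +kernel)

theorem p0_5_22 : Ok2 par f5 ((((Box3.unit.l 1).r 1).r 0).r 2) (selB2 0 (selB2 0 (selB2 0 (selB2 0 C0 44611614474438393089090836104458713436258303) 2053500692592590719) 51224) 1784) :=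
  Ok2.run hw hf5 ⟨331,19,19,16,13⟩ 58
    (.chk false 1024)
    (by decide +kernel)

theorem p0_5_23 : Ok2 par f5 (((Box3.unit.l 1).r 1).r 0) (selB2 1 (selB2 0 (selB2 0 (selB2 0 C0 44611614474438393089090836104458713436258303) 2053500692592590719) 51224) 1784) :=
  Ok2.run hw hf5 ⟨309,19,19,16,13⟩ 58
    (.chk false 0)
    (by decide +kernel)

theorem p0_5_24 : Ok2 par f5 ((Box3.unit.l 1).r 1) (selB2 1 (selB2 0 (selB2 0 C0 44611614474438393089090836104458713436258303) 2053500692592590719) 51224) :=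
  Ok2.run hw hf5 ⟨280,19,19,16,13⟩ 58
    (.chk false 0)
    (by decide +kernel)

theorem p0_5_25 : Ok2 par f5 (Box3.unit.l 1) (selB2 1 (selB2 0 C0 44611614474438393089090836104458713436258303) 2053500692592590719) :=
  Ok2.run hw hf5 ⟨267,19,19,16,13⟩ 58
    (.chk false 2048)
    (by decide +kernel)

theorem p0_5_26 : Ok2 par f5 (((((((((Box3.unit.r 1).l 0).l 1).l 1).r 2).r 0).l 1).r 2).l 0) (selB2 0 (selB2 0 (selB2 0 (selB2 0 (selB2 0 (selB2 0 C0 44611614474438393089090836104458713436258303) 35740988856354504832) 4503599627370495) 42) 16) 12) :=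
  Ok2.run hw hf5 ⟨484,19,19,16,13⟩ 58
    (.split 2 (.chk false 0) (.split 1 (.chk false 0) (.part 1 (.chk false 0) (.split 0 (.chk false 0) (.split 1 (.chk false 0) (.chk false 0))))))
    (by decide +kernel)

theorem p0_5_27 : Ok2 par f5 (((((((((Box3.unit.r 1).l 0).l 1).l 1).r 2).r 0).l 1).r 2).r 0) (selB2 0 (selB2 0 (selB2 0 (selB2 0 (selB2 0 (selB2 0 C0 44611614474438393089090836104458713436258303) 35740988856354504832) 4503599627370495) 42) 16) 12) :=
  Ok2.run hw hf5 ⟨482,19,19,16,13⟩ 58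
    (.part 1 (.chk false 0) (.split 1 (.chk false 0) (.split 2 (.chk false 0) (.split 0 (.split 1 (.chk false 0) (.chk false 0)) (.chk false 0)))))
    (by decide +kernel)

theorem p0_5_28 : Ok2 par f5 ((((((((Box3.unit.r 1).l 0).l 1).l 1).r 2).r 0).l 1).l 2) (selB2 0 (selB2 0 (selB2 0 (selB2 0 (selB2 0 (selB2 0 C0 44611614474438393089090836104458713436258303) 35740988856354504832) 4503599627370495) 42) 16) 12) :=
  Ok2.run hw hf5 ⟨388,19,19,16,13⟩ 58
    (.chk false 0)
    (by decide +kernel)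

theorem p0_5_29 : Ok2 par f5 (((((((Box3.unit.r 1).l 0).l 1).l 1).r 2).r 0).l 1) (selB2 1 (selB2 0 (selB2 0 (selB2 0 (selB2 0 (selB2 0 C0 44611614474438393089090836104458713436258303) 35740988856354504832) 4503599627370495) 42) 16) 12) :=
  Ok2.run hw hf5 ⟨376,19,19,16,13⟩ 58
    (.chk false 0)
    (by decide +kernel)

theorem p0_5_30 : Ok2 par f5 (((((((Box3.unit.r 1).l 0).l 1).l 1).r 2).r 0).r 1) (selB2 0 (selB2 0 (selB2 0 (selB2 0 (selB2 0 C0 44611614474438393089090836104458713436258303) 35740988856354504832) 4503599627370495) 42) 16) :=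
  Ok2.run hw hf5 ⟨417,19,19,16,13⟩ 58
    (.part 3 (.chk false 0) (.split 2 (.chk false 0) (.split 0 (.chk false 0) (.chk false 0))))
    (by decide +kernel)

theorem p0_5_31 : Ok2 par f5 ((((((Box3.unit.r 1).l 0).l 1).l 1).r 2).l 0) (selB2 0 (selB2 0 (selB2 0 (selB2 0 (selB2 0 C0 44611614474438393089090836104458713436258303) 35740988856354504832) 4503599627370495) 42) 16) :=
  Ok2.run hw hf5 ⟨368,19,19,16,13⟩ 58
    (.chk false 0)
    (by decide +kernel)

theorem p0_5_32 : Ok2 par f5 (((((Box3.unit.r 1).l 0).l 1).l 1).l 2) (selB2 0 (selB2 0 (selB2 0 (selB2 0 (selB2 0 C0 44611614474438393089090836104458713436258303) 35740988856354504832) 4503599627370495) 42) 16) :=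
  Ok2.run hw hf5 ⟨346,19,19,16,13⟩ 58
    (.chk false 0)
    (by decide +kernel)

theorem p0_5_33 : Ok2 par f5 ((((Box3.unit.r 1).l 0).l 1).l 1) (selB2 1 (selB2 0 (selB2 0 (selB2 0 (selB2 0 C0 44611614474438393089090836104458713436258303) 35740988856354504832) 4503599627370495) 42) 16) :=
  Ok2.run hw hf5 ⟨324,19,19,16,13⟩ 58
    (.chk false 0)
    (by decide +kernel)

theorem p0_5_34 : Ok2 par f5 ((((Box3.unit.r 1).l 0).l 1).r 1) (selB2 0 (selB2 0 (selB2 0 (selB2 0 C0 44611614474438393089090836104458713436258303) 35740988856354504832) 4503599627370495) 42) :=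
  Ok2.run hw hf5 ⟨329,19,19,16,13⟩ 58
    (.chk false 0)
    (by decide +kernel)

theorem p0_5_35 : Ok2 par f5 (((Box3.unit.r 1).l 0).l 1) (selB2 1 (selB2 0 (selB2 0 (selB2 0 C0 44611614474438393089090836104458713436258303) 35740988856354504832) 4503599627370495) 42) :=
  Ok2.run hw hf5 ⟨309,19,19,16,13⟩ 58
    (.chk false 0)
    (by decide +kernel)

theorem p0_5_36 : Ok2 par f5 (((Box3.unit.r 1).l 0).r 1) (selB2 0 (selB2 0 (selB2 0 C0 44611614474438393089090836104458713436258303) 35740988856354504832) 4503599627370495) :=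
  Ok2.run hw hf5 ⟨318,19,19,16,13⟩ 58
    (.chk false 0)
    (by decide +kernel)

theorem p0_5_37 : Ok2 par f5 ((Box3.unit.r 1).l 0) (selB2 1 (selB2 0 (selB2 0 C0 44611614474438393089090836104458713436258303) 35740988856354504832) 4503599627370495) :=
  Ok2.run hw hf5 ⟨296,19,19,16,13⟩ 58
    (.chk false 2048)
    (by decide +kernel)

theorem p0_5_38 : Ok2 par f5 (((((Box3.unit.r 1).r 0).l 1).l 1).l 2) (selB2 1 (selB2 0 (selB2 0 (selB2 0 (selB2 0 (selB2 0 C0 44611614474438393089090836104458713436258303) 35740988856354504832) 94575592174780416) 413416372041569) 17919) 30) :=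
  Ok2.run hw hf5 ⟨346,19,19,16,13⟩ 58
    (.chk false 0)
    (by decide +kernel)

theorem p0_5_39 : Ok2 par f5 (((((Box3.unit.r 1).r 0).l 1).l 1).l 2) (selB2 0 (selB2 0 (selB2 0 (selB2 0 (selB2 0 (selB2 0 C0 44611614474438393089090836104458713436258303) 35740988856354504832) 94575592174780416) 413416372041569) 17919) 30) :=
  Ok2.run hw hf5 ⟨453,19,19,16,13⟩ 58
    (.split 2 (.split 2 (.split 1 (.split 0 (.chk false 0) (.split 2 (.split 1 (.chk false 0) (.chk false 0)) (.chk false 0))) (.chk false 0)) (.chk false 0)) (.chk false 0))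
    (by decide +kernel)

theorem p0_5_40 : Ok2 par f5 (((((Box3.unit.r 1).r 0).l 1).l 1).r 2) (selB2 0 (selB2 0 (selB2 0 (selB2 0 (selB2 0 C0 44611614474438393089090836104458713436258303) 35740988856354504832) 94575592174780416) 413416372041569) 17919) :=
  Ok2.run hw hf5 ⟨398,19,19,16,13⟩ 58
    (.part 1 (.chk false 0) (.split 1 (.chk false 0) (.split 0 (.part 11 (.chk false 0) (.split 1 (.chk false 0) (.chk false 0))) (.chk false 0))))
    (by decide +kernel)

theorem p0_5_41 : Ok2 par f5 ((((Box3.unit.r 1).r 0).l 1).l 1) (selB2 1 (selB2 0 (selB2 0 (selB2 0 (selB2 0 C0 44611614474438393089090836104458713436258303) 35740988856354504832) 94575592174780416) 413416372041569) 17919) :=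
  Ok2.run hw hf5 ⟨324,19,19,16,13⟩ 58
    (.chk false 2048)
    (by decide +kernel)


end Crest.Agent.R163.P4
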