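import Crest.Agent.R163.Q3.D.P4.S0
import Crest.Agent.R163.Q3.D.P4.H

set_option autoImplicit false
set_option maxRecDepth 100000
set_option linter.all false
set_option Elab.async false

namespace Crest.Agent.R163.P4

theorem p0_5_42 : Ok2 par f5 (((((((((((Box3.unit.r 1).r 0).l 1).r 1).r 0).r 0).r 1).r 0).r 2).r 0).l 1) (selB2 0 (selB2 0 (selB2 0 (selB2 0 (selB2 0 (selB2 0 (selB2 0 (selB2 0 C0 44611614474438393089090836104458713436258303) 35740988856354504832) 94575592174780416) 413416372041569) 30240) 768) 224) 1) :=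
  Ok2.run hw hf5 ⟨503,19,19,16,13⟩ 58
    (.part 14 (.chk false 1024) (.split 2 (.chk false 512) (.split 1 (.chk false 512) (.chk false 512))))
    (by decide +kernel)

theorem p0_5_43 : Ok2 par f5 (((((((((((Box3.unit.r 1).r 0).l 1).r 1).r 0).r 0).r 1).r 0).r 2).r 0).r 1) (selB2 0 (selB2 0 (selB2 0 (selB2 0 (selB2 0 (selB2 0 (selB2 0 (selB2 0 C0 44611614474438393089090836104458713436258303) 35740988856354504832) 94575592174780416) 413416372041569) 30240) 768) 224) 1) :=
  Ok2.run hw hf5 ⟨539,19,19,16,13⟩ 58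
    (.part 13 (.chk false 1024) (.split 2 (.chk false 512) (.split 2 (.chk false 512) (.split 0 (.chk false 512) (.split 1 (.chk false 512) (.chk false 512))))))
    (by decide +kernel)

theorem p0_5_44 : Ok2 par f5 ((((((((((Box3.unit.r 1).r 0).l 1).r 1).r 0).r 0).r 1).r 0).r 2).l 0) (selB2 0 (selB2 0 (selB2 0 (selB2 0 (selB2 0 (selB2 0 (selB2 0 (selB2 0 C0 44611614474438393089090836104458713436258303) 35740988856354504832) 94575592174780416) 413416372041569) 30240) 768) 224) 1) :=
  Ok2.run hw hf5 ⟨449,19,19,16,13⟩ 58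
    (.chk false 1024)
    (by decide +kernel)

theorem p0_5_45 : Ok2 par f5 (((((((((Box3.unit.r 1).r 0).l 1).r 1).r 0).r 0).r 1).r 0).r 2) (selB2 1 (selB2 0 (selB2 0 (selB2 0 (selB2 0 (selB2 0 (selB2 0 (selB2 0 C0 44611614474438393089090836104458713436258303) 35740988856354504832) 94575592174780416) 413416372041569) 30240) 768) 224) 1) :=
  Ok2.run hw hf5 ⟨431,19,19,16,13⟩ 58
    (.chk false 512)
    (by decide +kernel)

theorem p0_5_46 : Ok2 par f5 (((((((((Box3.unit.r 1).r 0).l 1).r 1).r 0).r 0).r 1).r 0).l 2) (selB2 0 (selB2 0 (selB2 0 (selB2 0 (selB2 0 (selB2 0 (selB2 0 C0 44611614474438393089090836104458713436258303) 35740988856354504832) 94575592174780416) 413416372041569) 30240) 768) 224) :=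
  Ok2.run hw hf5 ⟨431,19,19,16,13⟩ 58
    (.chk false 1024)
    (by decide +kernel)

theorem p0_5_47 : Ok2 par f5 ((((((((Box3.unit.r 1).r 0).l 1).r 1).r 0).r 0).r 1).l 0) (selB2 0 (selB2 0 (selB2 0 (selB2 0 (selB2 0 (selB2 0 (selB2 0 C0 44611614474438393089090836104458713436258303) 35740988856354504832) 94575592174780416) 413416372041569) 30240) 768) 224) :=
  Ok2.run hw hf5 ⟨407,19,19,16,13⟩ 58
    (.chk false 1024)
    (by decide +kernel)

theorem p0_5_48 : Ok2 par f5 (((((((Box3.unit.r 1).r 0).l 1).r 1).r 0).r 0).r 1) (selB2 1 (selB2 0 (selB2 0 (selB2 0 (selB2 0 (selB2 0 (selB2 0 C0 44611614474438393089090836104458713436258303) 35740988856354504832) 94575592174780416) 413416372041569) 30240) 768) 224) :=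
  Ok2.run hw hf5 ⟨390,19,19,16,13⟩ 58
    (.chk false 0)
    (by decide +kernel)

theorem p0_5_49 : Ok2 par f5 (((((((Box3.unit.r 1).r 0).l 1).r 1).r 0).r 0).l 1) (selB2 0 (selB2 0 (selB2 0 (selB2 0 (selB2 0 (selB2 0 C0 44611614474438393089090836104458713436258303) 35740988856354504832) 94575592174780416) 413416372041569) 30240) 768) :=
  Ok2.run hw hf5 ⟨446,19,19,16,13⟩ 58
    (.part 223 (.chk false 1024) (.split 2 (.split 2 (.split 1 (.chk false 0) (.chk false 0)) (.chk false 0)) (.chk false 0)))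
    (by decide +kernel)

theorem p0_5_50 : Ok2 par f5 ((((((Box3.unit.r 1).r 0).l 1).r 1).r 0).l 0) (selB2 0 (selB2 0 (selB2 0 (selB2 0 (selB2 0 (selB2 0 C0 44611614474438393089090836104458713436258303) 35740988856354504832) 94575592174780416) 413416372041569) 30240) 768) :=
  Ok2.run hw hf5 ⟨367,19,19,16,13⟩ 58
    (.chk false 1024)
    (by decide +kernel)

theorem p0_5_51 : Ok2 par f5 (((((Box3.unit.r 1).r 0).l 1).r 1).r 0) (selB2 1 (selB2 0 (selB2 0 (selB2 0 (selB2 0 (selB2 0 C0 44611614474438393089090836104458713436258303) 35740988856354504832) 94575592174780416) 413416372041569) 30240) 768) :=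
  Ok2.run hw hf5 ⟨351,19,19,16,13⟩ 58
    (.chk false 0)
    (by decide +kernel)

theorem p0_5_52 : Ok2 par f5 (((((Box3.unit.r 1).r 0).l 1).r 1).l 0) (selB2 0 (selB2 0 (selB2 0 (selB2 0 (selB2 0 C0 44611614474438393089090836104458713436258303) 35740988856354504832) 94575592174780416) 413416372041569) 30240) :=
  Ok2.run hw hf5 ⟨343,19,19,16,13⟩ 58
    (.chk false 1024)
    (by decide +kernel)

theorem p0_5_53 : Ok2 par f5 ((((Box3.unit.r 1).r 0).l 1).r 1) (selB2 1 (selB2 0 (selB2 0 (selB2 0 (selB2 0 C0 44611614474438393089090836104458713436258303) 35740988856354504832) 94575592174780416) 413416372041569) 30240) :=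
  Ok2.run hw hf5 ⟨329,19,19,16,13⟩ 58
    (.chk false 2048)
    (by decide +kernel)

theorem p0_5_54 : Ok2 par f5 (((Box3.unit.r 1).r 0).l 1) (selB2 1 (selB2 0 (selB2 0 (selB2 0 C0 44611614474438393089090836104458713436258303) 35740988856354504832) 94575592174780416) 413416372041569) :=
  Ok2.run hw hf5 ⟨309,19,19,16,13⟩ 58
    (.chk false 2048)
    (by decide +kernel)

theorem p0_5_55 : Ok2 par f5 ((((((((((((((Box3.unit.r 1).r 0).r 1).r 0).l 1).r 0).r 1).r 0).r 2).r 1).r 0).r 2).r 0).l 1) (selB2 0 (selB2 0 (selB2 0 (selB2 0 (selB2 0 (selB2 0 (selB2 0 (selB2 0 C0 44611614474438393089090836104458713436258303) 35740988856354504832) 94575592174780416) 140667207542105230) 373293024) 484) 2) 2) :=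
  Ok2.run hw hf5 ⟨526,19,19,16,13⟩ 58
    (.chk false 1024)
    (by decide +kernel)

theorem p0_5_56 : Ok2 par f5 ((((((((((((((Box3.unit.r 1).r 0).r 1).r 0).l 1).r 0).r 1).r 0).r 2).r 1).r 0).r 2).r 0).r 1) (selB2 0 (selB2 0 (selB2 0 (selB2 0 (selB2 0 (selB2 0 (selB2 0 (selB2 0 C0 44611614474438393089090836104458713436258303) 35740988856354504832) 94575592174780416) 140667207542105230) 373293024) 484) 2) 2) :=
  Ok2.run hw hf5 ⟨594,19,19,16,13⟩ 58
    (.part 1 (.chk false 256) (.split 2 (.chk false 1024) (.split 0 (.chk false 1024) (.split 2 (.chk false 1024) (.split 1 (.chk false 1024) (.chk false 1024))))))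
    (by decide +kernel)

theorem p0_5_57 : Ok2 par f5 (((((((((((((Box3.unit.r 1).r 0).r 1).r 0).l 1).r 0).r 1).r 0).r 2).r 1).r 0).r 2).l 0) (selB2 0 (selB2 0 (selB2 0 (selB2 0 (selB2 0 (selB2 0 (selB2 0 (selB2 0 C0 44611614474438393089090836104458713436258303) 35740988856354504832) 94575592174780416) 140667207542105230) 373293024) 484) 2) 2) :=
  Ok2.run hw hf5 ⟨508,19,19,16,13⟩ 58
    (.chk false 1024)
    (by decide +kernel)

theorem p0_5_58 : Ok2 par f5 ((((((((((((Box3.unit.r 1).r 0).r 1).r 0).l 1).r 0).r 1).r 0).r 2).r 1).r 0).l 2) (selB2 0 (selB2 0 (selB2 0 (selB2 0 (selB2 0 (selB2 0 (selB2 0 (selB2 0 C0 44611614474438393089090836104458713436258303) 35740988856354504832) 94575592174780416) 140667207542105230) 373293024) 484) 2) 2) :=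
  Ok2.run hw hf5 ⟨484,19,19,16,13⟩ 58
    (.chk false 1024)
    (by decide +kernel)

theorem p0_5_59 : Ok2 par f5 (((((((((((Box3.unit.r 1).r 0).r 1).r 0).l 1).r 0).r 1).r 0).r 2).r 1).l 0) (selB2 0 (selB2 0 (selB2 0 (selB2 0 (selB2 0 (selB2 0 (selB2 0 (selB2 0 C0 44611614474438393089090836104458713436258303) 35740988856354504832) 94575592174780416) 140667207542105230) 373293024) 484) 2) 2) :=
  Ok2.run hw hf5 ⟨471,19,19,16,13⟩ 58
    (.chk false 1024)
    (by decide +kernel)

theorem p0_5_60 : Ok2 par f5 ((((((((((Box3.unit.r 1).r 0).r 1).r 0).l 1).r 0).r 1).r 0).r 2).r 1) (selB2 1 (selB2 0 (selB2 0 (selB2 0 (selB2 0 (selB2 0 (selB2 0 (selB2 0 C0 44611614474438393089090836104458713436258303) 35740988856354504832) 94575592174780416) 140667207542105230) 373293024) 484) 2) 2) :=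
  Ok2.run hw hf5 ⟨454,19,19,16,13⟩ 58
    (.chk false 512)
    (by decide +kernel)

theorem p0_5_61 : Ok2 par f5 ((((((((((Box3.unit.r 1).r 0).r 1).r 0).l 1).r 0).r 1).r 0).r 2).l 1) (selB2 0 (selB2 0 (selB2 0 (selB2 0 (selB2 0 (selB2 0 (selB2 0 C0 44611614474438393089090836104458713436258303) 35740988856354504832) 94575592174780416) 140667207542105230) 373293024) 484) 2) :=
  Ok2.run hw hf5 ⟨453,19,19,16,13⟩ 58
    (.chk false 1024)
    (by decide +kernel)

theorem p0_5_62 : Ok2 par f5 (((((((((Box3.unit.r 1).r 0).r 1).r 0).l 1).r 0).r 1).r 0).r 2) (selB2 1 (selB2 0 (selB2 0 (selB2 0 (selB2 0 (selB2 0 (selB2 0 C0 44611614474438393089090836104458713436258303) 35740988856354504832) 94575592174780416) 140667207542105230) 373293024) 484) 2) :=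
  Ok2.run hw hf5 ⟨435,19,19,16,13⟩ 58
    (.chk false 512)
    (by decide +kernel)

theorem p0_5_63 : Ok2 par f5 (((((((((Box3.unit.r 1).r 0).r 1).r 0).l 1).r 0).r 1).r 0).l 2) (selB2 0 (selB2 0 (selB2 0 (selB2 0 (selB2 0 (selB2 0 C0 44611614474438393089090836104458713436258303) 35740988856354504832) 94575592174780416) 140667207542105230) 373293024) 484) :=
  Ok2.run hw hf5 ⟨491,19,19,16,13⟩ 58
    (.part 8 (.chk false 1024) (.split 1 (.chk false 512) (.part 6 (.chk false 512) (.split 0 (.chk false 256) (.split 1 (.chk false 256) (.chk false 256))))))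
    (by decide +kernel)

theorem p0_5_64 : Ok2 par f5 ((((((((Box3.unit.r 1).r 0).r 1).r 0).l 1).r 0).r 1).l 0) (selB2 0 (selB2 0 (selB2 0 (selB2 0 (selB2 0 (selB2 0 C0 44611614474438393089090836104458713436258303) 35740988856354504832) 94575592174780416) 140667207542105230) 373293024) 484) :=
  Ok2.run hw hf5 ⟨412,19,19,16,13⟩ 58
    (.chk false 1024)
    (by decide +kernel)

theorem p0_5_65 : Ok2 par f5 (((((((Box3.unit.r 1).r 0).r 1).r 0).l 1).r 0).r 1) (selB2 1 (selB2 0 (selB2 0 (selB2 0 (selB2 0 (selB2 0 C0 44611614474438393089090836104458713436258303) 35740988856354504832) 94575592174780416) 140667207542105230) 373293024) 484) :=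
  Ok2.run hw hf5 ⟨395,19,19,16,13⟩ 58
    (.chk false 512)
    (by decide +kernel)

theorem p0_5_66 : Ok2 par f5 (((((((Box3.unit.r 1).r 0).r 1).r 0).l 1).r 0).l 1) (selB2 0 (selB2 0 (selB2 0 (selB2 0 (selB2 0 C0 44611614474438393089090836104458713436258303) 35740988856354504832) 94575592174780416) 140667207542105230) 373293024) :=
  Ok2.run hw hf5 ⟨411,19,19,16,13⟩ 58
    (.part 191 (.chk false 1024) (.split 1 (.chk false 0) (.chk false 0)))
    (by decide +kernel)

theorem p0_5_67 : Ok2 par f5 ((((((Box3.unit.r 1).r 0).r 1).r 0).l 1).l 0) (selB2 0 (selB2 0 (selB2 0 (selB2 0 (selB2 0 C0 44611614474438393089090836104458713436258303) 35740988856354504832) 94575592174780416) 140667207542105230) 373293024) :=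
  Ok2.run hw hf5 ⟨372,19,19,16,13⟩ 58
    (.chk false 1024)
    (by decide +kernel)

theorem p0_5_68 : Ok2 par f5 (((((Box3.unit.r 1).r 0).r 1).r 0).l 1) (selB2 1 (selB2 0 (selB2 0 (selB2 0 (selB2 0 C0 44611614474438393089090836104458713436258303) 35740988856354504832) 94575592174780416) 140667207542105230) 373293024) :=
  Ok2.run hw hf5 ⟨356,19,19,16,13⟩ 58
    (.chk false 2048)
    (by decide +kernel)

theorem p0_5_69 : Ok2 par f5 (((((((Box3.unit.r 1).r 0).r 1).r 0).r 1).r 0).l 1) (selB2 0 (selB2 0 (selB2 0 (selB2 0 (selB2 0 C0 44611614474438393089090836104458713436258303) 35740988856354504832) 94575592174780416) 140667207542105230) 432121311) :=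
  Ok2.run hw hf5 ⟨415,19,19,16,13⟩ 58
    (.part 2047 (.chk false 1024) (.split 1 (.chk false 0) (.chk false 0)))
    (by decide +kernel)

theorem p0_5_70 : Ok2 par f5 (((((((Box3.unit.r 1).r 0).r 1).r 0).r 1).r 0).r 1) (selB2 0 (selB2 0 (selB2 0 (selB2 0 (selB2 0 C0 44611614474438393089090836104458713436258303) 35740988856354504832) 94575592174780416) 140667207542105230) 432121311) :=
  Ok2.run hw hf5 ⟨417,19,19,16,13⟩ 58
    (.part 3839 (.chk false 1024) (.split 1 (.chk false 0) (.chk false 0)))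
    (by decide +kernel)

theorem p0_5_71 : Ok2 par f5 ((((((Box3.unit.r 1).r 0).r 1).r 0).r 1).l 0) (selB2 0 (selB2 0 (selB2 0 (selB2 0 (selB2 0 C0 44611614474438393089090836104458713436258303) 35740988856354504832) 94575592174780416) 140667207542105230) 432121311) :=
  Ok2.run hw hf5 ⟨376,19,19,16,13⟩ 58
    (.chk false 1024)
    (by decide +kernel)

theorem p0_5_72 : Ok2 par f5 (((((Box3.unit.r 1).r 0).r 1).r 0).r 1) (selB2 1 (selB2 0 (selB2 0 (selB2 0 (selB2 0 C0 44611614474438393089090836104458713436258303) 35740988856354504832) 94575592174780416) 140667207542105230) 432121311) :=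
  Ok2.run hw hf5 ⟨359,19,19,16,13⟩ 58
    (.chk false 2048)
    (by decide +kernel)

theorem p0_5_73 : Ok2 par f5 ((((Box3.unit.r 1).r 0).r 1).l 0) (selB2 0 (selB2 0 (selB2 0 (selB2 0 C0 44611614474438393089090836104458713436258303) 35740988856354504832) 94575592174780416) 140667207542105230) :=
  Ok2.run hw hf5 ⟨351,19,19,16,13⟩ 58
    (.part 532676607 (.chk false 2048) (.split 1 (.chk false 0) (.chk false 0)))
    (by decide +kernel)

theorem p0_5_74 : Ok2 par f5 (((Box3.unit.r 1).r 0).r 1) (selB2 1 (selB2 0 (selB2 0 (selB2 0 C0 44611614474438393089090836104458713436258303) 35740988856354504832) 94575592174780416) 140667207542105230) :=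
  Ok2.run hw hf5 ⟨318,19,19,16,13⟩ 58
    (.chk false 2048)
    (by decide +kernel)

theorem p0_5_75 : Ok2 par f5 ((Box3.unit.r 1).r 0) (selB2 1 (selB2 0 (selB2 0 C0 44611614474438393089090836104458713436258303) 35740988856354504832) 94575592174780416) :=
  Ok2.run hw hf5 ⟨296,19,19,16,13⟩ 58
    (.chk false 0)
    (by decide +kernel)

theorem p0_5_76 : Ok2 par f5 (Box3.unit.r 1) (selB2 1 (selB2 0 C0 44611614474438393089090836104458713436258303) 35740988856354504832) :=
  Ok2.run hw hf5 ⟨267,19,19,16,13⟩ 58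
    (.chk false 2048)
    (by decide +kernel)

theorem p0_6_0 : Ok2 par f6 Box3.unit (selB2 1 (selB2 1 C0 50177785187149203636984981524405622558162943) 576460752303423487) :=
  Ok2.run hw hf6 ⟨237,19,19,13,13⟩ 58
    (.chk false 2048)
    (by decide +kernel)

theorem p0_6_1 : Ok2 par f6 Box3.unit (selB2 0 (selB2 1 C0 50177785187149203636984981524405622558162943) 576460752303423487) :=
  Ok2.run hw hf6 ⟨237,19,19,13,13⟩ 58
    (.chk false 0)
    (by decide +kernel)

theorem p0_6_2 : Ok2 par f6 (((Box3.unit.r 1).r 0).l 1) (selB2 0 (selB2 0 (selB2 0 C0 50177785187149203636984981524405622558162943) 2) 42793854) :=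
  Ok2.run hw hf6 ⟨308,19,19,13,13⟩ 58
    (.chk false 0)
    (by decide +kernel)


end Crest.Agent.R163.P4
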