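import Crest.Agent.R163.Q3.D.P4.S0
import Crest.Agent.R163.Q3.D.P4.H

set_option autoImplicit false
set_option maxRecDepth 100000
set_option linter.all false
set_option Elab.async false

namespace Crest.Agent.R163.P4

theorem p0_6_3 : Ok2 par f6 (((Box3.unit.r 1).r 0).r 1) (selB2 0 (selB2 0 (selB2 0 C0 50177785187149203636984981524405622558162943) 2) 42793854) :=
  Ok2.run hw hf6 ⟨395,19,19,13,13⟩ 58
    (.split 0 (.chk false 0) (.part 1017 (.chk false 0) (.split 2 (.split 1 (.chk false 0) (.split 0 (.chk false 0) (.chk false 0))) (.chk false 0))))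
    (by decide +kernel)

theorem p0_6_4 : Ok2 par f6 ((Box3.unit.r 1).r 0) (selB2 1 (selB2 0 (selB2 0 C0 50177785187149203636984981524405622558162943) 2) 42793854) :=
  Ok2.run hw hf6 ⟨294,19,19,13,13⟩ 58
    (.chk false 0)
    (by decide +kernel)

theorem p0_6_5 : Ok2 par f6 ((Box3.unit.r 1).l 0) (selB2 0 (selB2 0 C0 50177785187149203636984981524405622558162943) 2) :=
  Ok2.run hw hf6 ⟨338,19,19,13,13⟩ 58
    (.part 134193145 (.chk false 0) (.split 1 (.chk false 0) (.split 0 (.chk false 0) (.chk false 0))))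
    (by decide +kernel)

theorem p0_6_6 : Ok2 par f6 (Box3.unit.r 1) (selB2 1 (selB2 0 C0 50177785187149203636984981524405622558162943) 2) :=
  Ok2.run hw hf6 ⟨266,19,19,13,13⟩ 58
    (.chk false 0)
    (by decide +kernel)

theorem p0_6_7 : Ok2 par f6 (Box3.unit.l 1) (selB2 0 C0 50177785187149203636984981524405622558162943) :=
  Ok2.run hw hf6 ⟨266,19,19,13,13⟩ 58
    (.chk false 0)
    (by decide +kernel)

theorem p0_7_0 : Ok2 par f7 Box3.unit (selB2 1 (selB2 0 C0 9444732965739290427391) 68719476735) :=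
  Ok2.run hw hf7 ⟨241,19,19,16,13⟩ 58
    (.chk false 0)
    (by decide +kernel)

theorem p0_7_1 : Ok2 par f7 Box3.unit (selB2 0 (selB2 0 C0 9444732965739290427391) 68719476735) :=
  Ok2.run hw hf7 ⟨241,19,19,16,13⟩ 58
    (.chk false 0)
    (by decide +kernel)

theorem p0_7_2 : Ok2 par f7 Box3.unit (selB2 1 (selB2 1 C0 9444732965739290427391) 68719476735) :=
  Ok2.run hw hf7 ⟨241,19,19,16,13⟩ 58
    (.chk false 1024)
    (by decide +kernel)

theorem p0_7_3 : Ok2 par f7 Box3.unit (selB2 0 (selB2 1 C0 9444732965739290427391) 68719476735) :=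
  Ok2.run hw hf7 ⟨241,19,19,16,13⟩ 58
    (.chk false 2048)
    (by decide +kernel)

theorem p0_8_0 : Ok2 par f8 Box3.unit (selB2 1 (selB2 1 C0 44602604227814151740154993223114909768744959) 576460752303423487) :=
  Ok2.run hw hf8 ⟨241,19,19,16,13⟩ 58
    (.chk false 2048)
    (by decide +kernel)

theorem p0_8_1 : Ok2 par f8 Box3.unit (selB2 0 (selB2 1 C0 44602604227814151740154993223114909768744959) 576460752303423487) :=
  Ok2.run hw hf8 ⟨241,19,19,16,13⟩ 58
    (.chk false 0)
    (by decide +kernel)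

theorem p0_8_2 : Ok2 par f8 (Box3.unit.l 0) (selB2 1 (selB2 0 C0 44602604227814151740154993223114909768744959) 268435452) :=
  Ok2.run hw hf8 ⟨269,19,19,16,13⟩ 58
    (.chk false 0)
    (by decide +kernel)

theorem p0_8_3 : Ok2 par f8 (Box3.unit.l 0) (selB2 0 (selB2 0 C0 44602604227814151740154993223114909768744959) 268435452) :=
  Ok2.run hw hf8 ⟨331,19,19,16,13⟩ 58
    (.split 1 (.chk false 0) (.split 0 (.chk false 0) (.part 1 (.chk false 0) (.split 0 (.chk false 0) (.chk false 0)))))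
    (by decide +kernel)

theorem p0_8_4 : Ok2 par f8 (((Box3.unit.r 0).r 1).l 0) (selB2 1 (selB2 0 (selB2 0 C0 44602604227814151740154993223114909768744959) 6207) 1046879) :=
  Ok2.run hw hf8 ⟨311,19,19,16,13⟩ 58
    (.chk false 0)
    (by decide +kernel)

theorem p0_8_5 : Ok2 par f8 (((Box3.unit.r 0).r 1).l 0) (selB2 0 (selB2 0 (selB2 0 C0 44602604227814151740154993223114909768744959) 6207) 1046879) :=
  Ok2.run hw hf8 ⟨375,19,19,16,13⟩ 58
    (.split 2 (.chk false 0) (.split 1 (.chk false 0) (.split 0 (.chk false 0) (.chk false 0))))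
    (by decide +kernel)

theorem p0_8_6 : Ok2 par f8 (((((Box3.unit.r 0).r 1).r 0).r 1).l 0) (selB2 1 (selB2 0 (selB2 0 (selB2 0 C0 44602604227814151740154993223114909768744959) 6207) 12274) 935) :=
  Ok2.run hw hf8 ⟨358,19,19,16,13⟩ 58
    (.chk false 0)
    (by decide +kernel)

theorem p0_8_7 : Ok2 par f8 (((((Box3.unit.r 0).r 1).r 0).r 1).l 0) (selB2 0 (selB2 0 (selB2 0 (selB2 0 C0 44602604227814151740154993223114909768744959) 6207) 12274) 935) :=
  Ok2.run hw hf8 ⟨418,19,19,16,13⟩ 58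
    (.split 2 (.chk false 0) (.split 1 (.chk false 0) (.part 2 (.chk false 0) (.split 0 (.chk false 0) (.chk false 0)))))
    (by decide +kernel)

theorem p0_8_8 : Ok2 par f8 (((((Box3.unit.r 0).r 1).r 0).r 1).r 0) (selB2 0 (selB2 0 (selB2 0 C0 44602604227814151740154993223114909768744959) 6207) 12274) :=
  Ok2.run hw hf8 ⟨401,19,19,16,13⟩ 58
    (.part 1022 (.chk false 0) (.split 2 (.chk false 0) (.split 2 (.chk false 0) (.chk false 0))))
    (by decide +kernel)

theorem p0_8_9 : Ok2 par f8 ((((Box3.unit.r 0).r 1).r 0).l 1) (selB2 0 (selB2 0 (selB2 0 C0 44602604227814151740154993223114909768744959) 6207) 12274) :=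
  Ok2.run hw hf8 ⟨333,19,19,16,13⟩ 58
    (.chk false 0)
    (by decide +kernel)

theorem p0_8_10 : Ok2 par f8 (((Box3.unit.r 0).r 1).r 0) (selB2 1 (selB2 0 (selB2 0 C0 44602604227814151740154993223114909768744959) 6207) 12274) :=
  Ok2.run hw hf8 ⟨319,19,19,16,13⟩ 58
    (.chk false 0)
    (by decide +kernel)

theorem p0_8_11 : Ok2 par f8 ((Box3.unit.r 0).l 1) (selB2 0 (selB2 0 C0 44602604227814151740154993223114909768744959) 6207) :=
  Ok2.run hw hf8 ⟨297,19,19,16,13⟩ 58
    (.chk false 0)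
    (by decide +kernel)

theorem p0_8_12 : Ok2 par f8 (Box3.unit.r 0) (selB2 1 (selB2 0 C0 44602604227814151740154993223114909768744959) 6207) :=
  Ok2.run hw hf8 ⟨269,19,19,16,13⟩ 58
    (.chk false 0)
    (by decide +kernel)

theorem p0_9_0 : Ok2 par f9 Box3.unit (selB2 1 (selB2 1 C0 89202980773348368440511633685787162399735807) 18014398509481983) :=
  Ok2.run hw hf9 ⟨239,19,19,16,13⟩ 58
    (.chk false 2048)
    (by decide +kernel)

theorem p0_9_1 : Ok2 par f9 Box3.unit (selB2 0 (selB2 1 C0 89202980773348368440511633685787162399735807) 18014398509481983) :=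
  Ok2.run hw hf9 ⟨239,19,19,16,13⟩ 58
    (.chk false 0)
    (by decide +kernel)

theorem p0_9_2 : Ok2 par f9 ((((((Box3.unit.r 0).l 1).r 0).l 1).r 0).l 1) (selB2 0 (selB2 0 (selB2 0 (selB2 0 (selB2 0 C0 89202980773348368440511633685787162399735807) 69793243136) 211815375) 49231) 1024) :=
  Ok2.run hw hf9 ⟨417,19,19,16,13⟩ 58
    (.part 1917 (.chk false 0) (.split 0 (.chk false 0) (.split 1 (.chk false 0) (.chk false 0))))
    (by decide +kernel)

theorem p0_9_3 : Ok2 par f9 ((((((Box3.unit.r 0).l 1).r 0).l 1).r 0).r 1) (selB2 0 (selB2 0 (selB2 0 (selB2 0 (selB2 0 C0 89202980773348368440511633685787162399735807) 69793243136) 211815375) 49231) 1024) :=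
  Ok2.run hw hf9 ⟨376,19,19,16,13⟩ 58
    (.chk false 0)
    (by decide +kernel)

theorem p0_9_4 : Ok2 par f9 (((((Box3.unit.r 0).l 1).r 0).l 1).r 0) (selB2 1 (selB2 0 (selB2 0 (selB2 0 (selB2 0 C0 89202980773348368440511633685787162399735807) 69793243136) 211815375) 49231) 1024) :=
  Ok2.run hw hf9 ⟨359,19,19,16,13⟩ 58
    (.chk false 0)
    (by decide +kernel)

theorem p0_9_5 : Ok2 par f9 (((((Box3.unit.r 0).l 1).r 0).l 1).l 0) (selB2 0 (selB2 0 (selB2 0 (selB2 0 C0 89202980773348368440511633685787162399735807) 69793243136) 211815375) 49231) :=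
  Ok2.run hw hf9 ⟨356,19,19,16,13⟩ 58
    (.chk false 0)
    (by decide +kernel)

theorem p0_9_6 : Ok2 par f9 ((((Box3.unit.r 0).l 1).r 0).l 1) (selB2 1 (selB2 0 (selB2 0 (selB2 0 C0 89202980773348368440511633685787162399735807) 69793243136) 211815375) 49231) :=
  Ok2.run hw hf9 ⟨340,19,19,16,13⟩ 58
    (.chk false 2048)
    (by decide +kernel)

theorem p0_9_7 : Ok2 par f9 ((((Box3.unit.r 0).l 1).r 0).r 1) (selB2 0 (selB2 0 (selB2 0 C0 89202980773348368440511633685787162399735807) 69793243136) 211815375) :=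
  Ok2.run hw hf9 ⟨331,19,19,16,13⟩ 58
    (.chk false 2048)
    (by decide +kernel)

theorem p0_9_8 : Ok2 par f9 (((Box3.unit.r 0).l 1).l 0) (selB2 0 (selB2 0 (selB2 0 C0 89202980773348368440511633685787162399735807) 69793243136) 211815375) :=
  Ok2.run hw hf9 ⟨309,19,19,16,13⟩ 58
    (.chk false 2048)
    (by decide +kernel)

theorem p0_9_9 : Ok2 par f9 ((Box3.unit.r 0).l 1) (selB2 1 (selB2 0 (selB2 0 C0 89202980773348368440511633685787162399735807) 69793243136) 211815375) :=
  Ok2.run hw hf9 ⟨296,19,19,16,13⟩ 58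
    (.chk false 512)
    (by decide +kernel)

theorem p0_9_10 : Ok2 par f9 ((((((Box3.unit.r 0).r 1).r 0).r 0).l 1).l 0) (selB2 0 (selB2 0 (selB2 0 (selB2 0 C0 89202980773348368440511633685787162399735807) 69793243136) 8589931640) 13) :=
  Ok2.run hw hf9 ⟨368,19,19,16,13⟩ 58
    (.chk false 512)
    (by decide +kernel)


end Crest.Agent.R163.P4
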