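import Crest.Agent.R163.Q3.D.P4.S0
import Crest.Agent.R163.Q3.D.P4.H

set_option autoImplicit false
set_option maxRecDepth 100000
set_option linter.all false
set_option Elab.async false

namespace Crest.Agent.R163.P4

theorem p0_9_11 : Ok2 par f9 ((((((Box3.unit.r 0).r 1).r 0).r 0).l 1).r 0) (selB2 0 (selB2 0 (selB2 0 (selB2 0 C0 89202980773348368440511633685787162399735807) 69793243136) 8589931640) 13) :=
  Ok2.run hw hf9 ⟨445,19,19,16,13⟩ 58
    (.split 1 (.part 13 (.chk false 512) (.split 2 (.chk false 0) (.split 0 (.chk false 0) (.split 1 (.chk false 0) (.chk false 0))))) (.chk false 512))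
    (by decide +kernel)

theorem p0_9_12 : Ok2 par f9 (((((Box3.unit.r 0).r 1).r 0).r 0).l 1) (selB2 1 (selB2 0 (selB2 0 (selB2 0 C0 89202980773348368440511633685787162399735807) 69793243136) 8589931640) 13) :=
  Ok2.run hw hf9 ⟨351,19,19,16,13⟩ 58
    (.chk false 0)
    (by decide +kernel)

theorem p0_9_13 : Ok2 par f9 (((((Box3.unit.r 0).r 1).r 0).r 0).r 1) (selB2 1 (selB2 0 (selB2 0 (selB2 0 C0 89202980773348368440511633685787162399735807) 69793243136) 8589931640) 126) :=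
  Ok2.run hw hf9 ⟨359,19,19,16,13⟩ 58
    (.chk false 512)
    (by decide +kernel)

theorem p0_9_14 : Ok2 par f9 (((((Box3.unit.r 0).r 1).r 0).r 0).r 1) (selB2 0 (selB2 0 (selB2 0 (selB2 0 C0 89202980773348368440511633685787162399735807) 69793243136) 8589931640) 126) :=
  Ok2.run hw hf9 ⟨456,19,19,16,13⟩ 58
    (.split 0 (.chk false 0) (.split 2 (.chk false 0) (.split 1 (.chk false 0) (.split 0 (.chk false 0) (.split 2 (.chk false 0) (.chk false 0))))))
    (by decide +kernel)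

theorem p0_9_15 : Ok2 par f9 ((((Box3.unit.r 0).r 1).r 0).l 0) (selB2 0 (selB2 0 (selB2 0 C0 89202980773348368440511633685787162399735807) 69793243136) 8589931640) :=
  Ok2.run hw hf9 ⟨334,19,19,16,13⟩ 58
    (.chk false 512)
    (by decide +kernel)

theorem p0_9_16 : Ok2 par f9 (((Box3.unit.r 0).r 1).l 0) (selB2 0 (selB2 0 (selB2 0 C0 89202980773348368440511633685787162399735807) 69793243136) 8589931640) :=
  Ok2.run hw hf9 ⟨309,19,19,16,13⟩ 58
    (.chk false 512)
    (by decide +kernel)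

theorem p0_9_17 : Ok2 par f9 ((Box3.unit.r 0).r 1) (selB2 1 (selB2 0 (selB2 0 C0 89202980773348368440511633685787162399735807) 69793243136) 8589931640) :=
  Ok2.run hw hf9 ⟨296,19,19,16,13⟩ 58
    (.chk false 2048)
    (by decide +kernel)

theorem p0_9_18 : Ok2 par f9 (Box3.unit.r 0) (selB2 1 (selB2 0 C0 89202980773348368440511633685787162399735807) 69793243136) :=
  Ok2.run hw hf9 ⟨267,19,19,16,13⟩ 58
    (.chk false 0)
    (by decide +kernel)

theorem p0_9_19 : Ok2 par f9 (Box3.unit.l 0) (selB2 0 C0 89202980773348368440511633685787162399735807) :=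
  Ok2.run hw hf9 ⟨267,19,19,16,13⟩ 58
    (.chk false 2048)
    (by decide +kernel)

theorem p0_10_0 : Ok2 par f10 Box3.unit (selB2 1 (selB2 1 C0 89202980191202531707915336922872689186570239) 1125899906842623) :=
  Ok2.run hw hf10 ⟨238,19,19,16,13⟩ 58
    (.chk false 1024)
    (by decide +kernel)

theorem p0_10_1 : Ok2 par f10 Box3.unit (selB2 0 (selB2 1 C0 89202980191202531707915336922872689186570239) 1125899906842623) :=
  Ok2.run hw hf10 ⟨238,19,19,16,13⟩ 58
    (.chk false 0)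
    (by decide +kernel)

theorem p0_10_2 : Ok2 par f10 ((((((((Box3.unit.r 1).l 0).l 2).r 1).l 0).l 2).r 1).l 0) (selB2 0 (selB2 0 (selB2 0 (selB2 0 (selB2 0 (selB2 0 C0 89202980191202531707915336922872689186570239) 500) 34) 4193983) 49356) 1983) :=
  Ok2.run hw hf10 ⟨419,19,19,16,13⟩ 58
    (.chk false 0)
    (by decide +kernel)

theorem p0_10_3 : Ok2 par f10 ((((((((Box3.unit.r 1).l 0).l 2).r 1).l 0).l 2).r 1).r 0) (selB2 0 (selB2 0 (selB2 0 (selB2 0 (selB2 0 (selB2 0 C0 89202980191202531707915336922872689186570239) 500) 34) 4193983) 49356) 1983) :=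
  Ok2.run hw hf10 ⟨501,19,19,16,13⟩ 58
    (.part 1 (.chk false 0) (.split 2 (.split 1 (.chk false 0) (.split 0 (.chk false 0) (.split 2 (.split 1 (.chk false 0) (.chk false 0)) (.chk false 0)))) (.chk false 0)))
    (by decide +kernel)

theorem p0_10_4 : Ok2 par f10 (((((((Box3.unit.r 1).l 0).l 2).r 1).l 0).l 2).l 1) (selB2 0 (selB2 0 (selB2 0 (selB2 0 (selB2 0 (selB2 0 C0 89202980191202531707915336922872689186570239) 500) 34) 4193983) 49356) 1983) :=
  Ok2.run hw hf10 ⟨395,19,19,16,13⟩ 58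
    (.chk false 0)
    (by decide +kernel)

theorem p0_10_5 : Ok2 par f10 ((((((Box3.unit.r 1).l 0).l 2).r 1).l 0).r 2) (selB2 0 (selB2 0 (selB2 0 (selB2 0 (selB2 0 (selB2 0 C0 89202980191202531707915336922872689186570239) 500) 34) 4193983) 49356) 1983) :=
  Ok2.run hw hf10 ⟨373,19,19,16,13⟩ 58
    (.chk false 0)
    (by decide +kernel)

theorem p0_10_6 : Ok2 par f10 (((((Box3.unit.r 1).l 0).l 2).r 1).l 0) (selB2 1 (selB2 0 (selB2 0 (selB2 0 (selB2 0 (selB2 0 C0 89202980191202531707915336922872689186570239) 500) 34) 4193983) 49356) 1983) :=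
  Ok2.run hw hf10 ⟨361,19,19,16,13⟩ 58
    (.chk false 0)
    (by decide +kernel)

theorem p0_10_7 : Ok2 par f10 (((((Box3.unit.r 1).l 0).l 2).r 1).r 0) (selB2 0 (selB2 0 (selB2 0 (selB2 0 (selB2 0 C0 89202980191202531707915336922872689186570239) 500) 34) 4193983) 49356) :=
  Ok2.run hw hf10 ⟨410,19,19,16,13⟩ 58
    (.part 4047 (.chk false 0) (.split 2 (.split 0 (.part 1 (.chk false 0) (.split 1 (.chk false 0) (.chk false 0))) (.chk false 0)) (.chk false 0)))
    (by decide +kernel)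

theorem p0_10_8 : Ok2 par f10 ((((Box3.unit.r 1).l 0).l 2).l 1) (selB2 0 (selB2 0 (selB2 0 (selB2 0 (selB2 0 C0 89202980191202531707915336922872689186570239) 500) 34) 4193983) 49356) :=
  Ok2.run hw hf10 ⟨331,19,19,16,13⟩ 58
    (.chk false 0)
    (by decide +kernel)

theorem p0_10_9 : Ok2 par f10 (((Box3.unit.r 1).l 0).l 2) (selB2 1 (selB2 0 (selB2 0 (selB2 0 (selB2 0 C0 89202980191202531707915336922872689186570239) 500) 34) 4193983) 49356) :=
  Ok2.run hw hf10 ⟨317,19,19,16,13⟩ 58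
    (.chk false 0)
    (by decide +kernel)

theorem p0_10_10 : Ok2 par f10 ((((((((Box3.unit.r 1).l 0).r 2).r 1).l 0).r 2).r 1).r 0) (selB2 1 (selB2 0 (selB2 0 (selB2 0 (selB2 0 (selB2 0 (selB2 0 (selB2 0 C0 89202980191202531707915336922872689186570239) 500) 34) 4193983) 1) 24063) 2) 5) :=
  Ok2.run hw hf10 ⟨415,19,19,16,13⟩ 58
    (.chk false 0)
    (by decide +kernel)

theorem p0_10_11 : Ok2 par f10 ((((((((Box3.unit.r 1).l 0).r 2).r 1).l 0).r 2).r 1).r 0) (selB2 0 (selB2 0 (selB2 0 (selB2 0 (selB2 0 (selB2 0 (selB2 0 (selB2 0 C0 89202980191202531707915336922872689186570239) 500) 34) 4193983) 1) 24063) 2) 5) :=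
  Ok2.run hw hf10 ⟨521,19,19,16,13⟩ 58
    (.split 2 (.chk false 0) (.split 1 (.chk false 0) (.split 0 (.split 2 (.chk false 0) (.split 1 (.chk false 0) (.split 0 (.chk false 0) (.chk false 0)))) (.chk false 0))))
    (by decide +kernel)

theorem p0_10_12 : Ok2 par f10 ((((((((Box3.unit.r 1).l 0).r 2).r 1).l 0).r 2).r 1).l 0) (selB2 0 (selB2 0 (selB2 0 (selB2 0 (selB2 0 (selB2 0 (selB2 0 C0 89202980191202531707915336922872689186570239) 500) 34) 4193983) 1) 24063) 2) :=
  Ok2.run hw hf10 ⟨419,19,19,16,13⟩ 58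
    (.chk false 0)
    (by decide +kernel)

theorem p0_10_13 : Ok2 par f10 (((((((Box3.unit.r 1).l 0).r 2).r 1).l 0).r 2).l 1) (selB2 0 (selB2 0 (selB2 0 (selB2 0 (selB2 0 (selB2 0 (selB2 0 C0 89202980191202531707915336922872689186570239) 500) 34) 4193983) 1) 24063) 2) :=
  Ok2.run hw hf10 ⟨395,19,19,16,13⟩ 58
    (.chk false 0)
    (by decide +kernel)

theorem p0_10_14 : Ok2 par f10 ((((((Box3.unit.r 1).l 0).r 2).r 1).l 0).r 2) (selB2 1 (selB2 0 (selB2 0 (selB2 0 (selB2 0 (selB2 0 (selB2 0 C0 89202980191202531707915336922872689186570239) 500) 34) 4193983) 1) 24063) 2) :=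
  Ok2.run hw hf10 ⟨379,19,19,16,13⟩ 58
    (.chk false 0)
    (by decide +kernel)

theorem p0_10_15 : Ok2 par f10 ((((((Box3.unit.r 1).l 0).r 2).r 1).l 0).l 2) (selB2 0 (selB2 0 (selB2 0 (selB2 0 (selB2 0 (selB2 0 C0 89202980191202531707915336922872689186570239) 500) 34) 4193983) 1) 24063) :=
  Ok2.run hw hf10 ⟨373,19,19,16,13⟩ 58
    (.chk false 0)
    (by decide +kernel)

theorem p0_10_16 : Ok2 par f10 (((((Box3.unit.r 1).l 0).r 2).r 1).l 0) (selB2 1 (selB2 0 (selB2 0 (selB2 0 (selB2 0 (selB2 0 C0 89202980191202531707915336922872689186570239) 500) 34) 4193983) 1) 24063) :=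
  Ok2.run hw hf10 ⟨361,19,19,16,13⟩ 58
    (.chk false 0)
    (by decide +kernel)

theorem p0_10_17 : Ok2 par f10 (((((((((Box3.unit.r 1).l 0).r 2).r 1).r 0).r 2).r 1).l 0).r 2) (selB2 1 (selB2 0 (selB2 0 (selB2 0 (selB2 0 (selB2 0 (selB2 0 (selB2 0 C0 89202980191202531707915336922872689186570239) 500) 34) 4193983) 1) 123425) 126) 1) :=
  Ok2.run hw hf10 ⟨427,19,19,16,13⟩ 58
    (.chk false 0)
    (by decide +kernel)

theorem p0_10_18 : Ok2 par f10 (((((((((Box3.unit.r 1).l 0).r 2).r 1).r 0).r 2).r 1).l 0).r 2) (selB2 0 (selB2 0 (selB2 0 (selB2 0 (selB2 0 (selB2 0 (selB2 0 (selB2 0 C0 89202980191202531707915336922872689186570239) 500) 34) 4193983) 1) 123425) 126) 1) :=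
  Ok2.run hw hf10 ⟨502,19,19,16,13⟩ 58
    (.split 1 (.chk false 0) (.split 0 (.part 6 (.chk false 0) (.split 1 (.chk false 0) (.split 0 (.chk false 0) (.chk false 0)))) (.chk false 0)))
    (by decide +kernel)

theorem p0_10_19 : Ok2 par f10 (((((((((Box3.unit.r 1).l 0).r 2).r 1).r 0).r 2).r 1).l 0).l 2) (selB2 0 (selB2 0 (selB2 0 (selB2 0 (selB2 0 (selB2 0 (selB2 0 C0 89202980191202531707915336922872689186570239) 500) 34) 4193983) 1) 123425) 126) :=
  Ok2.run hw hf10 ⟨424,19,19,16,13⟩ 58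
    (.chk false 0)
    (by decide +kernel)

theorem p0_10_20 : Ok2 par f10 ((((((((Box3.unit.r 1).l 0).r 2).r 1).r 0).r 2).r 1).l 0) (selB2 1 (selB2 0 (selB2 0 (selB2 0 (selB2 0 (selB2 0 (selB2 0 C0 89202980191202531707915336922872689186570239) 500) 34) 4193983) 1) 123425) 126) :=
  Ok2.run hw hf10 ⟨411,19,19,16,13⟩ 58
    (.chk false 0)
    (by decide +kernel)

theorem p0_10_21 : Ok2 par f10 ((((((((Box3.unit.r 1).l 0).r 2).r 1).r 0).r 2).r 1).r 0) (selB2 1 (selB2 0 (selB2 0 (selB2 0 (selB2 0 (selB2 0 (selB2 0 C0 89202980191202531707915336922872689186570239) 500) 34) 4193983) 1) 123425) 927) :=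
  Ok2.run hw hf10 ⟨405,19,19,16,13⟩ 58
    (.chk false 0)
    (by decide +kernel)

theorem p0_10_22 : Ok2 par f10 ((((((((Box3.unit.r 1).l 0).r 2).r 1).r 0).r 2).r 1).r 0) (selB2 0 (selB2 0 (selB2 0 (selB2 0 (selB2 0 (selB2 0 (selB2 0 C0 89202980191202531707915336922872689186570239) 500) 34) 4193983) 1) 123425) 927) :=
  Ok2.run hw hf10 ⟨497,19,19,16,13⟩ 58
    (.split 0 (.part 1 (.chk false 0) (.split 1 (.chk false 0) (.split 2 (.chk false 0) (.split 1 (.chk false 0) (.split 0 (.chk false 0) (.chk false 0)))))) (.chk false 0))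
    (by decide +kernel)

theorem p0_10_23 : Ok2 par f10 (((((((Box3.unit.r 1).l 0).r 2).r 1).r 0).r 2).l 1) (selB2 0 (selB2 0 (selB2 0 (selB2 0 (selB2 0 (selB2 0 C0 89202980191202531707915336922872689186570239) 500) 34) 4193983) 1) 123425) :=
  Ok2.run hw hf10 ⟨386,19,19,16,13⟩ 58
    (.chk false 0)
    (by decide +kernel)

theorem p0_10_24 : Ok2 par f10 ((((((Box3.unit.r 1).l 0).r 2).r 1).r 0).l 2) (selB2 0 (selB2 0 (selB2 0 (selB2 0 (selB2 0 (selB2 0 C0 89202980191202531707915336922872689186570239) 500) 34) 4193983) 1) 123425) :=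
  Ok2.run hw hf10 ⟨364,19,19,16,13⟩ 58
    (.chk false 0)
    (by decide +kernel)

theorem p0_10_25 : Ok2 par f10 (((((Box3.unit.r 1).l 0).r 2).r 1).r 0) (selB2 1 (selB2 0 (selB2 0 (selB2 0 (selB2 0 (selB2 0 C0 89202980191202531707915336922872689186570239) 500) 34) 4193983) 1) 123425) :=
  Ok2.run hw hf10 ⟨353,19,19,16,13⟩ 58
    (.chk false 0)
    (by decide +kernel)


end Crest.Agent.R163.P4
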