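import Crest.Agent.R163.Q3.D.P4.S0
import Crest.Agent.R163.Q3.D.P4.H

set_option autoImplicit false
set_option maxRecDepth 100000
set_option linter.all false
set_option Elab.async false

namespace Crest.Agent.R163.P4

theorem p0_10_26 : Ok2 par f10 ((((Box3.unit.r 1).l 0).r 2).l 1) (selB2 0 (selB2 0 (selB2 0 (selB2 0 (selB2 0 C0 89202980191202531707915336922872689186570239) 500) 34) 4193983) 1) :=
  Ok2.run hw hf10 ⟨331,19,19,16,13⟩ 58
    (.chk false 0)
    (by decide +kernel)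

theorem p0_10_27 : Ok2 par f10 (((Box3.unit.r 1).l 0).r 2) (selB2 1 (selB2 0 (selB2 0 (selB2 0 (selB2 0 C0 89202980191202531707915336922872689186570239) 500) 34) 4193983) 1) :=
  Ok2.run hw hf10 ⟨317,19,19,16,13⟩ 58
    (.chk false 0)
    (by decide +kernel)

theorem p0_10_28 : Ok2 par f10 ((Box3.unit.r 1).l 0) (selB2 1 (selB2 0 (selB2 0 (selB2 0 C0 89202980191202531707915336922872689186570239) 500) 34) 4193983) :=
  Ok2.run hw hf10 ⟨295,19,19,16,13⟩ 58
    (.chk false 0)
    (by decide +kernel)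

theorem p0_10_29 : Ok2 par f10 ((((((Box3.unit.r 1).r 0).r 1).l 0).r 1).r 0) (selB2 1 (selB2 0 (selB2 0 (selB2 0 (selB2 0 (selB2 0 (selB2 0 C0 89202980191202531707915336922872689186570239) 500) 34) 274536071923) 81936) 12487) 79) :=
  Ok2.run hw hf10 ⟨371,19,19,16,13⟩ 58
    (.chk false 0)
    (by decide +kernel)

theorem p0_10_30 : Ok2 par f10 ((((((Box3.unit.r 1).r 0).r 1).l 0).r 1).r 0) (selB2 0 (selB2 0 (selB2 0 (selB2 0 (selB2 0 (selB2 0 (selB2 0 C0 89202980191202531707915336922872689186570239) 500) 34) 274536071923) 81936) 12487) 79) :=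
  Ok2.run hw hf10 ⟨449,19,19,16,13⟩ 58
    (.split 2 (.split 0 (.chk false 0) (.chk false 0)) (.part 2 (.chk false 0) (.split 2 (.chk false 0) (.split 1 (.chk false 0) (.split 0 (.chk false 0) (.chk false 0))))))
    (by decide +kernel)

theorem p0_10_31 : Ok2 par f10 ((((((Box3.unit.r 1).r 0).r 1).l 0).r 1).l 0) (selB2 0 (selB2 0 (selB2 0 (selB2 0 (selB2 0 (selB2 0 C0 89202980191202531707915336922872689186570239) 500) 34) 274536071923) 81936) 12487) :=
  Ok2.run hw hf10 ⟨366,19,19,16,13⟩ 58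
    (.chk false 0)
    (by decide +kernel)

theorem p0_10_32 : Ok2 par f10 (((((Box3.unit.r 1).r 0).r 1).l 0).l 1) (selB2 0 (selB2 0 (selB2 0 (selB2 0 (selB2 0 (selB2 0 C0 89202980191202531707915336922872689186570239) 500) 34) 274536071923) 81936) 12487) :=
  Ok2.run hw hf10 ⟨347,19,19,16,13⟩ 58
    (.chk false 0)
    (by decide +kernel)

theorem p0_10_33 : Ok2 par f10 ((((Box3.unit.r 1).r 0).r 1).l 0) (selB2 1 (selB2 0 (selB2 0 (selB2 0 (selB2 0 (selB2 0 C0 89202980191202531707915336922872689186570239) 500) 34) 274536071923) 81936) 12487) :=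
  Ok2.run hw hf10 ⟨331,19,19,16,13⟩ 58
    (.chk false 0)
    (by decide +kernel)

theorem p0_10_34 : Ok2 par f10 ((((Box3.unit.r 1).r 0).r 1).r 0) (selB2 0 (selB2 0 (selB2 0 (selB2 0 (selB2 0 C0 89202980191202531707915336922872689186570239) 500) 34) 274536071923) 81936) :=
  Ok2.run hw hf10 ⟨339,19,19,16,13⟩ 58
    (.chk false 0)
    (by decide +kernel)

theorem p0_10_35 : Ok2 par f10 (((Box3.unit.r 1).r 0).r 1) (selB2 1 (selB2 0 (selB2 0 (selB2 0 (selB2 0 C0 89202980191202531707915336922872689186570239) 500) 34) 274536071923) 81936) :=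
  Ok2.run hw hf10 ⟨317,19,19,16,13⟩ 58
    (.chk false 0)
    (by decide +kernel)

theorem p0_10_36 : Ok2 par f10 (((Box3.unit.r 1).r 0).l 1) (selB2 0 (selB2 0 (selB2 0 (selB2 0 C0 89202980191202531707915336922872689186570239) 500) 34) 274536071923) :=
  Ok2.run hw hf10 ⟨309,19,19,16,13⟩ 58
    (.chk false 0)
    (by decide +kernel)

theorem p0_10_37 : Ok2 par f10 ((Box3.unit.r 1).r 0) (selB2 1 (selB2 0 (selB2 0 (selB2 0 C0 89202980191202531707915336922872689186570239) 500) 34) 274536071923) :=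
  Ok2.run hw hf10 ⟨295,19,19,16,13⟩ 58
    (.chk false 0)
    (by decide +kernel)

theorem p0_10_38 : Ok2 par f10 (Box3.unit.r 1) (selB2 1 (selB2 0 (selB2 0 C0 89202980191202531707915336922872689186570239) 500) 34) :=
  Ok2.run hw hf10 ⟨267,19,19,16,13⟩ 58
    (.chk false 0)
    (by decide +kernel)

theorem p0_10_39 : Ok2 par f10 (Box3.unit.l 1) (selB2 0 (selB2 0 C0 89202980191202531707915336922872689186570239) 500) :=
  Ok2.run hw hf10 ⟨295,19,19,16,13⟩ 58
    (.part 1099511627647 (.chk false 0) (.split 0 (.chk false 0) (.chk false 0)))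
    (by decide +kernel)

theorem p0_10_40 : Ok2 par f10 Box3.unit (selB2 1 (selB2 0 C0 89202980191202531707915336922872689186570239) 500) :=
  Ok2.run hw hf10 ⟨281,25,25,16,14⟩ 58
    (.chk true 0)
    (by decide +kernel)

theorem p0_11_0 : Ok2 par f11 Box3.unit (selB2 1 (selB2 1 C0 89202980794122492566142575054379024182673407) 36893488147419103231) :=
  Ok2.run hw hf11 ⟨240,19,19,13,13⟩ 58
    (.chk false 512)
    (by decide +kernel)

theorem p0_11_1 : Ok2 par f11 Box3.unit (selB2 0 (selB2 1 C0 89202980794122492566142575054379024182673407) 36893488147419103231) :=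
  Ok2.run hw hf11 ⟨240,19,19,13,13⟩ 58
    (.chk false 0)
    (by decide +kernel)

theorem p0_11_2 : Ok2 par f11 (Box3.unit.l 0) (selB2 0 (selB2 0 C0 89202980794122492566142575054379024182673407) 3839) :=
  Ok2.run hw hf11 ⟨323,25,25,13,13⟩ 58
    (.part 14 (.chk false 0) (.chk true 0))
    (by decide +kernel)

theorem p0_11_3 : Ok2 par f11 (Box3.unit.r 0) (selB2 0 (selB2 0 C0 89202980794122492566142575054379024182673407) 3839) :=
  Ok2.run hw hf11 ⟨386,25,25,13,13⟩ 58
    (.part 14 (.chk false 0) (.split 1 (.chk true 0) (.split 1 (.chk true 0) (.chk true 0))))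
    (by decide +kernel)

theorem p0_11_4 : Ok2 par f11 Box3.unit (selB2 1 (selB2 0 C0 89202980794122492566142575054379024182673407) 3839) :=
  Ok2.run hw hf11 ⟨289,25,25,13,13⟩ 58
    (.chk true 0)
    (by decide +kernel)

theorem p0_12_0 : Ok2 par f12 Box3.unit (selB2 1 (selB2 1 C0 89202980794122492560719204626592301161996287) 18014398509481983) :=
  Ok2.run hw hf12 ⟨254,19,19,13,13⟩ 58
    (.chk false 0)
    (by decide +kernel)

theorem p0_12_1 : Ok2 par f12 Box3.unit (selB2 0 (selB2 1 C0 89202980794122492560719204626592301161996287) 18014398509481983) :=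
  Ok2.run hw hf12 ⟨254,19,19,13,13⟩ 58
    (.chk false 0)
    (by decide +kernel)

theorem p0_12_2 : Ok2 par f12 (((Box3.unit.l 0).l 1).l 0) (selB2 0 (selB2 0 (selB2 0 (selB2 0 (selB2 0 (selB2 0 C0 89202980794122492560719204626592301161996287) 46731309) 262155) 1057) 942095) 31) :=
  Ok2.run hw hf12 ⟨400,25,25,13,13⟩ 58
    (.part 30 (.chk false 0) (.part 1 (.chk true 0) (.split 2 (.split 1 (.chk false 0) (.chk false 0)) (.chk false 0))))
    (by decide +kernel)

theorem p0_12_3 : Ok2 par f12 (((Box3.unit.l 0).l 1).r 0) (selB2 0 (selB2 0 (selB2 0 (selB2 0 (selB2 0 (selB2 0 C0 89202980794122492560719204626592301161996287) 46731309) 262155) 1057) 942095) 31) :=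
  Ok2.run hw hf12 ⟨391,25,25,13,13⟩ 58
    (.part 62 (.chk false 0) (.chk true 0))
    (by decide +kernel)

theorem p0_12_4 : Ok2 par f12 ((Box3.unit.l 0).l 1) (selB2 1 (selB2 0 (selB2 0 (selB2 0 (selB2 0 (selB2 0 C0 89202980794122492560719204626592301161996287) 46731309) 262155) 1057) 942095) 31) :=
  Ok2.run hw hf12 ⟨372,25,25,13,13⟩ 58
    (.chk true 0)
    (by decide +kernel)

theorem p0_12_5 : Ok2 par f12 ((Box3.unit.l 0).l 1) (selB2 1 (selB2 0 (selB2 0 (selB2 0 (selB2 0 C0 89202980794122492560719204626592301161996287) 46731309) 262155) 1057) 942095) :=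
  Ok2.run hw hf12 ⟨311,19,19,13,13⟩ 58
    (.chk false 512)
    (by decide +kernel)

theorem p0_12_6 : Ok2 par f12 (((((((((((Box3.unit.l 0).r 1).r 2).r 0).r 1).r 2).l 1).r 0).r 2).r 1).l 0) (selB2 0 (selB2 0 (selB2 0 (selB2 0 (selB2 0 (selB2 0 (selB2 0 (selB2 0 (selB2 0 C0 89202980794122492560719204626592301161996287) 46731309) 262155) 1057) 1047552) 259) 92) 1) 2) :=
  Ok2.run hw hf12 ⟨617,25,25,13,13⟩ 58
    (.split 2 (.chk true 0) (.split 1 (.chk false 512) (.split 0 (.chk false 512) (.chk true 0))))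
    (by decide +kernel)

theorem p0_12_7 : Ok2 par f12 (((((((((((Box3.unit.l 0).r 1).r 2).r 0).r 1).r 2).l 1).r 0).r 2).r 1).r 0) (selB2 0 (selB2 0 (selB2 0 (selB2 0 (selB2 0 (selB2 0 (selB2 0 (selB2 0 (selB2 0 C0 89202980794122492560719204626592301161996287) 46731309) 262155) 1057) 1047552) 259) 92) 1) 2) :=
  Ok2.run hw hf12 ⟨554,25,25,13,13⟩ 58
    (.chk true 0)
    (by decide +kernel)

theorem p0_12_8 : Ok2 par f12 ((((((((((Box3.unit.l 0).r 1).r 2).r 0).r 1).r 2).l 1).r 0).r 2).l 1) (selB2 0 (selB2 0 (selB2 0 (selB2 0 (selB2 0 (selB2 0 (selB2 0 (selB2 0 (selB2 0 C0 89202980794122492560719204626592301161996287) 46731309) 262155) 1057) 1047552) 259) 92) 1) 2) :=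
  Ok2.run hw hf12 ⟨530,25,25,13,13⟩ 58
    (.chk true 0)
    (by decide +kernel)

theorem p0_12_9 : Ok2 par f12 (((((((((Box3.unit.l 0).r 1).r 2).r 0).r 1).r 2).l 1).r 0).l 2) (selB2 0 (selB2 0 (selB2 0 (selB2 0 (selB2 0 (selB2 0 (selB2 0 (selB2 0 (selB2 0 C0 89202980794122492560719204626592301161996287) 46731309) 262155) 1057) 1047552) 259) 92) 1) 2) :=
  Ok2.run hw hf12 ⟨505,25,25,13,13⟩ 58
    (.chk true 0)
    (by decide +kernel)

theorem p0_12_10 : Ok2 par f12 ((((((((Box3.unit.l 0).r 1).r 2).r 0).r 1).r 2).l 1).r 0) (selB2 1 (selB2 0 (selB2 0 (selB2 0 (selB2 0 (selB2 0 (selB2 0 (selB2 0 (selB2 0 C0 89202980794122492560719204626592301161996287) 46731309) 262155) 1057) 1047552) 259) 92) 1) 2) :=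
  Ok2.run hw hf12 ⟨494,25,25,13,13⟩ 58
    (.chk true 0)
    (by decide +kernel)

theorem p0_12_11 : Ok2 par f12 ((((((((Box3.unit.l 0).r 1).r 2).r 0).r 1).r 2).l 1).l 0) (selB2 0 (selB2 0 (selB2 0 (selB2 0 (selB2 0 (selB2 0 (selB2 0 (selB2 0 C0 89202980794122492560719204626592301161996287) 46731309) 262155) 1057) 1047552) 259) 92) 1) :=
  Ok2.run hw hf12 ⟨499,25,25,13,13⟩ 58
    (.part 1 (.chk false 512) (.chk true 0))
    (by decide +kernel)

theorem p0_12_12 : Ok2 par f12 (((((((Box3.unit.l 0).r 1).r 2).r 0).r 1).r 2).l 1) (selB2 1 (selB2 0 (selB2 0 (selB2 0 (selB2 0 (selB2 0 (selB2 0 (selB2 0 C0 89202980794122492560719204626592301161996287) 46731309) 262155) 1057) 1047552) 259) 92) 1) :=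
  Ok2.run hw hf12 ⟨473,25,25,13,13⟩ 58
    (.chk true 0)
    (by decide +kernel)

theorem p0_12_13 : Ok2 par f12 (((((((Box3.unit.l 0).r 1).r 2).r 0).r 1).r 2).r 1) (selB2 0 (selB2 0 (selB2 0 (selB2 0 (selB2 0 (selB2 0 (selB2 0 C0 89202980794122492560719204626592301161996287) 46731309) 262155) 1057) 1047552) 259) 92) :=
  Ok2.run hw hf12 ⟨476,25,25,13,13⟩ 58
    (.chk true 0)
    (by decide +kernel)

theorem p0_12_14 : Ok2 par f12 ((((((Box3.unit.l 0).r 1).r 2).r 0).r 1).l 2) (selB2 0 (selB2 0 (selB2 0 (selB2 0 (selB2 0 (selB2 0 (selB2 0 C0 89202980794122492560719204626592301161996287) 46731309) 262155) 1057) 1047552) 259) 92) :=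
  Ok2.run hw hf12 ⟨446,25,25,13,13⟩ 58
    (.chk true 0)
    (by decide +kernel)

theorem p0_12_15 : Ok2 par f12 (((((Box3.unit.l 0).r 1).r 2).r 0).l 1) (selB2 0 (selB2 0 (selB2 0 (selB2 0 (selB2 0 (selB2 0 (selB2 0 C0 89202980794122492560719204626592301161996287) 46731309) 262155) 1057) 1047552) 259) 92) :=
  Ok2.run hw hf12 ⟨481,25,25,13,13⟩ 58
    (.part 3 (.chk true 0) (.split 2 (.chk true 0) (.split 2 (.chk true 0) (.split 0 (.chk true 0) (.chk true 0)))))
    (by decide +kernel)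

theorem p0_12_16 : Ok2 par f12 ((((Box3.unit.l 0).r 1).r 2).r 0) (selB2 1 (selB2 0 (selB2 0 (selB2 0 (selB2 0 (selB2 0 (selB2 0 C0 89202980794122492560719204626592301161996287) 46731309) 262155) 1057) 1047552) 259) 92) :=
  Ok2.run hw hf12 ⟨409,25,25,13,13⟩ 58
    (.chk true 0)
    (by decide +kernel)


end Crest.Agent.R163.P4
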