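import Crest.Agent.R163.Q3.D.P4.S0
import Crest.Agent.R163.Q3.D.P4.H

set_option autoImplicit false
set_option maxRecDepth 100000
set_option linter.all false
set_option Elab.async false

namespace Crest.Agent.R163.P4

theorem p0_12_17 : Ok2 par f12 ((((Box3.unit.l 0).r 1).r 2).l 0) (selB2 0 (selB2 0 (selB2 0 (selB2 0 (selB2 0 (selB2 0 C0 89202980794122492560719204626592301161996287) 46731309) 262155) 1057) 1047552) 259) :=
  Ok2.run hw hf12 ⟨417,25,25,13,13⟩ 58
    (.part 3 (.chk false 512) (.chk true 0))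
    (by decide +kernel)

theorem p0_12_18 : Ok2 par f12 (((Box3.unit.l 0).r 1).l 2) (selB2 0 (selB2 0 (selB2 0 (selB2 0 (selB2 0 (selB2 0 C0 89202980794122492560719204626592301161996287) 46731309) 262155) 1057) 1047552) 259) :=
  Ok2.run hw hf12 ⟨437,25,25,13,13⟩ 58
    (.part 115 (.chk true 0) (.split 0 (.chk true 0) (.part 2 (.chk true 0) (.split 1 (.chk true 0) (.chk true 0)))))
    (by decide +kernel)

theorem p0_12_19 : Ok2 par f12 ((Box3.unit.l 0).r 1) (selB2 1 (selB2 0 (selB2 0 (selB2 0 (selB2 0 (selB2 0 C0 89202980794122492560719204626592301161996287) 46731309) 262155) 1057) 1047552) 259) :=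
  Ok2.run hw hf12 ⟨372,25,25,13,13⟩ 58
    (.chk true 0)
    (by decide +kernel)

theorem p0_12_20 : Ok2 par f12 ((Box3.unit.l 0).r 1) (selB2 1 (selB2 0 (selB2 0 (selB2 0 (selB2 0 C0 89202980794122492560719204626592301161996287) 46731309) 262155) 1057) 1047552) :=
  Ok2.run hw hf12 ⟨311,19,19,13,13⟩ 58
    (.chk false 0)
    (by decide +kernel)

theorem p0_12_21 : Ok2 par f12 (Box3.unit.l 0) (selB2 1 (selB2 0 (selB2 0 (selB2 0 C0 89202980794122492560719204626592301161996287) 46731309) 262155) 1057) :=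
  Ok2.run hw hf12 ⟨337,25,25,13,13⟩ 58
    (.chk true 0)
    (by decide +kernel)

theorem p0_12_22 : Ok2 par f12 (Box3.unit.l 0) (selB2 1 (selB2 0 (selB2 0 C0 89202980794122492560719204626592301161996287) 46731309) 262155) :=
  Ok2.run hw hf12 ⟨282,19,19,13,13⟩ 58
    (.chk false 256)
    (by decide +kernel)

theorem p0_12_23 : Ok2 par f12 (((Box3.unit.r 0).l 1).l 1) (selB2 1 (selB2 0 (selB2 0 (selB2 0 (selB2 0 (selB2 0 C0 89202980794122492560719204626592301161996287) 46731309) 134152192) 40963) 2156) 109) :=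
  Ok2.run hw hf12 ⟨400,25,25,13,13⟩ 58
    (.chk true 0)
    (by decide +kernel)

theorem p0_12_24 : Ok2 par f12 (((Box3.unit.r 0).l 1).l 1) (selB2 0 (selB2 0 (selB2 0 (selB2 0 (selB2 0 (selB2 0 C0 89202980794122492560719204626592301161996287) 46731309) 134152192) 40963) 2156) 109) :=
  Ok2.run hw hf12 ⟨428,25,25,13,13⟩ 58
    (.split 0 (.part 1 (.chk false 0) (.chk true 0)) (.part 2 (.chk true 0) (.split 2 (.chk false 0) (.chk false 0))))
    (by decide +kernel)

theorem p0_12_25 : Ok2 par f12 (((((Box3.unit.r 0).l 1).r 1).r 0).r 1) (selB2 1 (selB2 0 (selB2 0 (selB2 0 (selB2 0 (selB2 0 (selB2 0 (selB2 0 (selB2 0 C0 89202980794122492560719204626592301161996287) 46731309) 134152192) 40963) 2156) 2) 52) 2) 2) :=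
  Ok2.run hw hf12 ⟨441,25,25,13,13⟩ 58
    (.chk true 0)
    (by decide +kernel)

theorem p0_12_26 : Ok2 par f12 (((((Box3.unit.r 0).l 1).r 1).r 0).r 1) (selB2 0 (selB2 0 (selB2 0 (selB2 0 (selB2 0 (selB2 0 (selB2 0 (selB2 0 (selB2 0 C0 89202980794122492560719204626592301161996287) 46731309) 134152192) 40963) 2156) 2) 52) 2) 2) :=
  Ok2.run hw hf12 ⟨523,25,25,13,13⟩ 58
    (.split 2 (.split 2 (.split 0 (.chk true 0) (.split 1 (.chk true 0) (.chk true 0))) (.chk true 0)) (.chk true 0))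
    (by decide +kernel)

theorem p0_12_27 : Ok2 par f12 (((((Box3.unit.r 0).l 1).r 1).r 0).l 1) (selB2 0 (selB2 0 (selB2 0 (selB2 0 (selB2 0 (selB2 0 (selB2 0 (selB2 0 C0 89202980794122492560719204626592301161996287) 46731309) 134152192) 40963) 2156) 2) 52) 2) :=
  Ok2.run hw hf12 ⟨510,25,25,13,13⟩ 58
    (.part 1 (.chk true 0) (.split 0 (.split 2 (.split 1 (.chk true 0) (.chk true 0)) (.chk true 0)) (.chk true 0)))
    (by decide +kernel)

theorem p0_12_28 : Ok2 par f12 ((((Box3.unit.r 0).l 1).r 1).r 0) (selB2 1 (selB2 0 (selB2 0 (selB2 0 (selB2 0 (selB2 0 (selB2 0 (selB2 0 C0 89202980794122492560719204626592301161996287) 46731309) 134152192) 40963) 2156) 2) 52) 2) :=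
  Ok2.run hw hf12 ⟨419,25,25,13,13⟩ 58
    (.chk true 0)
    (by decide +kernel)

theorem p0_12_29 : Ok2 par f12 ((((Box3.unit.r 0).l 1).r 1).l 0) (selB2 0 (selB2 0 (selB2 0 (selB2 0 (selB2 0 (selB2 0 (selB2 0 C0 89202980794122492560719204626592301161996287) 46731309) 134152192) 40963) 2156) 2) 52) :=
  Ok2.run hw hf12 ⟨437,25,25,13,13⟩ 58
    (.part 3 (.chk true 0) (.split 1 (.chk true 0) (.chk true 0)))
    (by decide +kernel)

theorem p0_12_30 : Ok2 par f12 (((Box3.unit.r 0).l 1).r 1) (selB2 1 (selB2 0 (selB2 0 (selB2 0 (selB2 0 (selB2 0 (selB2 0 C0 89202980794122492560719204626592301161996287) 46731309) 134152192) 40963) 2156) 2) 52) :=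
  Ok2.run hw hf12 ⟨391,25,25,13,13⟩ 58
    (.chk true 0)
    (by decide +kernel)

theorem p0_12_31 : Ok2 par f12 (((Box3.unit.r 0).l 1).r 1) (selB2 1 (selB2 0 (selB2 0 (selB2 0 (selB2 0 (selB2 0 C0 89202980794122492560719204626592301161996287) 46731309) 134152192) 40963) 2156) 2) :=
  Ok2.run hw hf12 ⟨324,19,19,13,13⟩ 58
    (.chk false 0)
    (by decide +kernel)

theorem p0_12_32 : Ok2 par f12 ((Box3.unit.r 0).l 1) (selB2 1 (selB2 0 (selB2 0 (selB2 0 (selB2 0 C0 89202980794122492560719204626592301161996287) 46731309) 134152192) 40963) 2156) :=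
  Ok2.run hw hf12 ⟨372,25,25,13,13⟩ 58
    (.chk true 0)
    (by decide +kernel)

theorem p0_12_33 : Ok2 par f12 (((((Box3.unit.r 0).r 1).l 1).r 2).l 0) (selB2 0 (selB2 0 (selB2 0 (selB2 0 (selB2 0 (selB2 0 (selB2 0 (selB2 0 C0 89202980794122492560719204626592301161996287) 46731309) 134152192) 40963) 2) 2018) 2) 1) :=
  Ok2.run hw hf12 ⟨428,25,25,13,13⟩ 58
    (.chk true 0)
    (by decide +kernel)

theorem p0_12_34 : Ok2 par f12 (((((Box3.unit.r 0).r 1).l 1).r 2).r 0) (selB2 0 (selB2 0 (selB2 0 (selB2 0 (selB2 0 (selB2 0 (selB2 0 (selB2 0 C0 89202980794122492560719204626592301161996287) 46731309) 134152192) 40963) 2) 2018) 2) 1) :=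
  Ok2.run hw hf12 ⟨498,25,25,13,13⟩ 58
    (.part 1 (.chk true 0) (.split 1 (.split 2 (.chk true 0) (.split 0 (.chk true 0) (.chk true 0))) (.chk true 0)))
    (by decide +kernel)

theorem p0_12_35 : Ok2 par f12 ((((Box3.unit.r 0).r 1).l 1).r 2) (selB2 1 (selB2 0 (selB2 0 (selB2 0 (selB2 0 (selB2 0 (selB2 0 (selB2 0 C0 89202980794122492560719204626592301161996287) 46731309) 134152192) 40963) 2) 2018) 2) 1) :=
  Ok2.run hw hf12 ⟨409,25,25,13,13⟩ 58
    (.chk true 0)
    (by decide +kernel)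

theorem p0_12_36 : Ok2 par f12 ((((Box3.unit.r 0).r 1).l 1).l 2) (selB2 0 (selB2 0 (selB2 0 (selB2 0 (selB2 0 (selB2 0 (selB2 0 C0 89202980794122492560719204626592301161996287) 46731309) 134152192) 40963) 2) 2018) 2) :=
  Ok2.run hw hf12 ⟨454,25,25,13,13⟩ 58
    (.part 4 (.chk true 0) (.split 0 (.part 1 (.chk true 0) (.split 0 (.chk true 0) (.chk true 0))) (.chk true 0)))
    (by decide +kernel)

theorem p0_12_37 : Ok2 par f12 (((Box3.unit.r 0).r 1).l 1) (selB2 1 (selB2 0 (selB2 0 (selB2 0 (selB2 0 (selB2 0 (selB2 0 C0 89202980794122492560719204626592301161996287) 46731309) 134152192) 40963) 2) 2018) 2) :=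
  Ok2.run hw hf12 ⟨391,25,25,13,13⟩ 58
    (.chk true 0)
    (by decide +kernel)

theorem p0_12_38 : Ok2 par f12 ((((Box3.unit.r 0).r 1).r 1).l 2) (selB2 0 (selB2 0 (selB2 0 (selB2 0 (selB2 0 (selB2 0 (selB2 0 C0 89202980794122492560719204626592301161996287) 46731309) 134152192) 40963) 2) 2018) 11) :=
  Ok2.run hw hf12 ⟨505,25,25,13,13⟩ 58
    (.split 0 (.split 0 (.split 1 (.split 0 (.chk true 0) (.chk true 0)) (.chk true 0)) (.chk true 0)) (.chk true 0))
    (by decide +kernel)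

theorem p0_12_39 : Ok2 par f12 ((((Box3.unit.r 0).r 1).r 1).r 2) (selB2 0 (selB2 0 (selB2 0 (selB2 0 (selB2 0 (selB2 0 (selB2 0 C0 89202980794122492560719204626592301161996287) 46731309) 134152192) 40963) 2) 2018) 11) :=
  Ok2.run hw hf12 ⟨463,25,25,13,13⟩ 58
    (.split 0 (.split 1 (.chk true 0) (.chk true 0)) (.chk true 0))
    (by decide +kernel)

theorem p0_12_40 : Ok2 par f12 (((Box3.unit.r 0).r 1).r 1) (selB2 1 (selB2 0 (selB2 0 (selB2 0 (selB2 0 (selB2 0 (selB2 0 C0 89202980794122492560719204626592301161996287) 46731309) 134152192) 40963) 2) 2018) 11) :=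
  Ok2.run hw hf12 ⟨400,25,25,13,13⟩ 58
    (.chk true 0)
    (by decide +kernel)

theorem p0_12_41 : Ok2 par f12 ((Box3.unit.r 0).r 1) (selB2 1 (selB2 0 (selB2 0 (selB2 0 (selB2 0 (selB2 0 C0 89202980794122492560719204626592301161996287) 46731309) 134152192) 40963) 2) 2018) :=
  Ok2.run hw hf12 ⟨372,25,25,13,13⟩ 58
    (.chk true 0)
    (by decide +kernel)

theorem p0_12_42 : Ok2 par f12 ((Box3.unit.r 0).r 1) (selB2 1 (selB2 0 (selB2 0 (selB2 0 (selB2 0 C0 89202980794122492560719204626592301161996287) 46731309) 134152192) 40963) 2) :=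
  Ok2.run hw hf12 ⟨311,19,19,13,13⟩ 58
    (.chk false 0)
    (by decide +kernel)

theorem p0_12_43 : Ok2 par f12 (Box3.unit.r 0) (selB2 1 (selB2 0 (selB2 0 (selB2 0 C0 89202980794122492560719204626592301161996287) 46731309) 134152192) 40963) :=
  Ok2.run hw hf12 ⟨338,25,25,13,13⟩ 58
    (.chk true 0)
    (by decide +kernel)

theorem p0_12_44 : Ok2 par f12 (Box3.unit.r 0) (selB2 1 (selB2 0 (selB2 0 C0 89202980794122492560719204626592301161996287) 46731309) 134152192) :=
  Ok2.run hw hf12 ⟨282,19,19,13,13⟩ 58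
    (.chk false 0)
    (by decide +kernel)

theorem p0_12_45 : Ok2 par f12 Box3.unit (selB2 1 (selB2 0 C0 89202980794122492560719204626592301161996287) 46731309) :=
  Ok2.run hw hf12 ⟨303,25,25,13,13⟩ 58
    (.chk true 0)
    (by decide +kernel)


end Crest.Agent.R163.P4
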