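import Crest.Agent.R163.Q3.D.P4.P0_0
import Crest.Agent.R163.Q3.D.P4.P0_1
import Crest.Agent.R163.Q3.D.P4.P0_2
import Crest.Agent.R163.Q3.D.P4.P0_3
import Crest.Agent.R163.Q3.D.P4.P0_4
import Crest.Agent.R163.Q3.D.P4.P0_5
import Crest.Agent.R163.Q3.D.P4.P0_6

set_option autoImplicit false
set_option maxRecDepth 100000
set_option linter.all false
set_option Elab.async false

namespace Crest.Agent.R163.P4

theorem o0_12 : Ok2 par f12 Box3.unit C0 :=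
  (Ok2.part 89202980794122492560719204626592301161996287 (Ok2.part 18014398509481983 p0_12_0 p0_12_1) (Ok2.part 46731309 p0_12_45 (Ok2.split 0 (Ok2.part 262155 p0_12_22 (Ok2.part 1057 p0_12_21 (Ok2.split 1 (Ok2.part 942095 p0_12_5 (Ok2.part 31 p0_12_4 (Ok2.split 0 p0_12_2 p0_12_3))) (Ok2.part 1047552 p0_12_20 (Ok2.part 259 p0_12_19 (Ok2.split 2 p0_12_18 (Ok2.split 0 p0_12_17 (Ok2.part 92 p0_12_16 (Ok2.split 1 p0_12_15 (Ok2.split 2 p0_12_14 (Ok2.split 1 (Ok2.part 1 p0_12_12 (Ok2.split 0 p0_12_11 (Ok2.part 2 p0_12_10 (Ok2.split 2 p0_12_9 (Ok2.split 1 p0_12_8 (Ok2.split 0 p0_12_6 p0_12_7)))))) p0_12_13))))))))))) (Ok2.part 134152192 p0_12_44 (Ok2.part 40963 p0_12_43 (Ok2.split 1 (Ok2.part 2156 p0_12_32 (Ok2.split 1 (Ok2.part 109 p0_12_23 p0_12_24) (Ok2.part 2 p0_12_31 (Ok2.part 52 p0_12_30 (Ok2.split 0 p0_12_29 (Ok2.part 2 p0_12_28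 (Ok2.split 1 p0_12_27 (Ok2.part 2 p0_12_25 p0_12_26)))))))) (Ok2.part 2 p0_12_42 (Ok2.part 2018 p0_12_41 (Ok2.split 1 (Ok2.part 2 p0_12_37 (Ok2.split 2 p0_12_36 (Ok2.part 1 p0_12_35 (Ok2.split 0 p0_12_33 p0_12_34)))) (Ok2.part 11 p0_12_40 (Ok2.split 2 p0_12_38 p0_12_39)))))))))))
theorem o0_11 : Ok2 par f11 Box3.unit C0 :=
  (Ok2.part 89202980794122492566142575054379024182673407 (Ok2.part 36893488147419103231 p0_11_0 p0_11_1) (Ok2.part 3839 p0_11_4 (Ok2.split 0 p0_11_2 p0_11_3)))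
theorem o0_10 : Ok2 par f10 Box3.unit C0 :=
  (Ok2.part 89202980191202531707915336922872689186570239 (Ok2.part 1125899906842623 p0_10_0 p0_10_1) (Ok2.part 500 p0_10_40 (Ok2.split 1 p0_10_39 (Ok2.part 34 p0_10_38 (Ok2.split 0 (Ok2.part 4193983 p0_10_28 (Ok2.split 2 (Ok2.part 49356 p0_10_9 (Ok2.split 1 p0_10_8 (Ok2.split 0 (Ok2.part 1983 p0_10_6 (Ok2.split 2 (Ok2.split 1 p0_10_4 (Ok2.split 0 p0_10_2 p0_10_3)) p0_10_5)) p0_10_7))) (Ok2.part 1 p0_10_27 (Ok2.split 1 p0_10_26 (Ok2.split 0 (Ok2.part 24063 p0_10_16 (Ok2.split 2 p0_10_15 (Ok2.part 2 p0_10_14 (Ok2.split 1 p0_10_13 (Ok2.split 0 p0_10_12 (Ok2.part 5 p0_10_10 p0_10_11)))))) (Ok2.part 123425 p0_10_25 (Ok2.split 2 p0_10_24 (Ok2.split 1 p0_10_23 (Ok2.split 0 (Ok2.part 126 p0_10_20 (Ok2.split 2 p0_10_19 (Ok2.part 1 p0_10_17 p0_10_18))) (Ok2.part 927 p0_10_21 p0_10_22))))))))))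 (Ok2.part 274536071923 p0_10_37 (Ok2.split 1 p0_10_36 (Ok2.part 81936 p0_10_35 (Ok2.split 0 (Ok2.part 12487 p0_10_33 (Ok2.split 1 p0_10_32 (Ok2.split 0 p0_10_31 (Ok2.part 79 p0_10_29 p0_10_30)))) p0_10_34)))))))))
theorem o0_9 : Ok2 par f9 Box3.unit C0 :=
  (Ok2.part 89202980773348368440511633685787162399735807 (Ok2.part 18014398509481983 p0_9_0 p0_9_1) (Ok2.split 0 p0_9_19 (Ok2.part 69793243136 p0_9_18 (Ok2.split 1 (Ok2.part 211815375 p0_9_9 (Ok2.split 0 p0_9_8 (Ok2.split 1 (Ok2.part 49231 p0_9_6 (Ok2.split 0 p0_9_5 (Ok2.part 1024 p0_9_4 (Ok2.split 1 p0_9_2 p0_9_3)))) p0_9_7))) (Ok2.part 8589931640 p0_9_17 (Ok2.split 0 p0_9_16 (Ok2.split 0 p0_9_15 (Ok2.split 1 (Ok2.part 13 p0_9_12 (Ok2.split 0 p0_9_10 p0_9_11)) (Ok2.part 126 p0_9_13 p0_9_14)))))))))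
theorem o0_8 : Ok2 par f8 Box3.unit C0 :=
  (Ok2.part 44602604227814151740154993223114909768744959 (Ok2.part 576460752303423487 p0_8_0 p0_8_1) (Ok2.split 0 (Ok2.part 268435452 p0_8_2 p0_8_3) (Ok2.part 6207 p0_8_12 (Ok2.split 1 p0_8_11 (Ok2.split 0 (Ok2.part 1046879 p0_8_4 p0_8_5) (Ok2.part 12274 p0_8_10 (Ok2.split 1 p0_8_9 (Ok2.split 0 (Ok2.part 935 p0_8_6 p0_8_7) p0_8_8))))))))
theorem o0_7 : Ok2 par f7 Box3.unit C0 :=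
  (Ok2.part 9444732965739290427391 (Ok2.part 68719476735 p0_7_2 p0_7_3) (Ok2.part 68719476735 p0_7_0 p0_7_1))
theorem o0_6 : Ok2 par f6 Box3.unit C0 :=
  (Ok2.part 50177785187149203636984981524405622558162943 (Ok2.part 576460752303423487 p0_6_0 p0_6_1) (Ok2.split 1 p0_6_7 (Ok2.part 2 p0_6_6 (Ok2.split 0 p0_6_5 (Ok2.part 42793854 p0_6_4 (Ok2.split 1 p0_6_2 p0_6_3))))))
theorem o0_5 : Ok2 par f5 Box3.unit C0 :=
  (Ok2.part 44611614474438393089090836104458713436258303 (Ok2.part 68719476735 p0_5_0 p0_5_1) (Ok2.split 1 (Ok2.part 2053500692592590719 p0_5_25 (Ok2.split 1 (Ok2.part 96159 p0_5_5 (Ok2.split 2 (Ok2.part 1 p0_5_2 p0_5_3) p0_5_4)) (Ok2.part 51224 p0_5_24 (Ok2.split 0 (Ok2.part 2319 p0_5_12 (Ok2.split 2 p0_5_11 (Ok2.part 48 p0_5_10 (Ok2.split 0 (Ok2.part 8 p0_5_8 (Ok2.split 1 p0_5_6 p0_5_7)) p0_5_9)))) (Ok2.part 1784 p0_5_23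 (Ok2.split 2 (Ok2.split 1 (Ok2.part 14 p0_5_20 (Ok2.split 0 p0_5_19 (Ok2.part 2 p0_5_18 (Ok2.split 2 (Ok2.split 0 p0_5_16 (Ok2.split 1 p0_5_15 (Ok2.split 2 p0_5_13 p0_5_14))) p0_5_17)))) p0_5_21) p0_5_22)))))) (Ok2.part 35740988856354504832 p0_5_76 (Ok2.split 0 (Ok2.part 4503599627370495 p0_5_37 (Ok2.split 1 (Ok2.part 42 p0_5_35 (Ok2.split 1 (Ok2.part 16 p0_5_33 (Ok2.split 2 p0_5_32 (Ok2.split 0 p0_5_31 (Ok2.split 1 (Ok2.part 12 p0_5_29 (Ok2.split 2 p0_5_28 (Ok2.split 0 p0_5_26 p0_5_27))) p0_5_30)))) p0_5_34)) p0_5_36)) (Ok2.part 94575592174780416 p0_5_75 (Ok2.split 1 (Ok2.part 413416372041569 p0_5_54 (Ok2.split 1 (Ok2.part 17919 p0_5_41 (Ok2.split 2 (Ok2.part 30 p0_5_38 p0_5_39) p0_5_40)) (Ok2.part 30240 p0_5_53 (Ok2.split 0 p0_5_52 (Ok2.part 768 p0_5_51 (Ok2.split 0 p0_5_50 (Ok2.split 1 p0_5_49 (Ok2.part 224 p0_5_48 (Ok2.split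 0 p0_5_47 (Ok2.split 2 p0_5_46 (Ok2.part 1 p0_5_45 (Ok2.split 0 p0_5_44 (Ok2.split 1 p0_5_42 p0_5_43))))))))))))) (Ok2.part 140667207542105230 p0_5_74 (Ok2.split 0 p0_5_73 (Ok2.split 1 (Ok2.part 373293024 p0_5_68 (Ok2.split 0 p0_5_67 (Ok2.split 1 p0_5_66 (Ok2.part 484 p0_5_65 (Ok2.split 0 p0_5_64 (Ok2.split 2 p0_5_63 (Ok2.part 2 p0_5_62 (Ok2.split 1 p0_5_61 (Ok2.part 2 p0_5_60 (Ok2.split 0 p0_5_59 (Ok2.split 2 p0_5_58 (Ok2.split 0 p0_5_57 (Ok2.split 1 p0_5_55 p0_5_56))))))))))))) (Ok2.part 432121311 p0_5_72 (Ok2.split 0 p0_5_71 (Ok2.split 1 p0_5_69 p0_5_70))))))))))))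
theorem o0_4 : Ok2 par f4 Box3.unit C0 :=
  (Ok2.part 89041006387468125857534306525254345222520831 (Ok2.part 295147905179352825855 (Ok2.part 17179869183 p0_4_2 p0_4_3) (Ok2.part 17179869183 p0_4_0 p0_4_1)) (Ok2.split 0 p0_4_14 (Ok2.part 3 p0_4_13 (Ok2.split 1 (Ok2.split 0 p0_4_11 (Ok2.part 5 p0_4_10 (Ok2.split 1 (Ok2.part 28 p0_4_8 (Ok2.split 2 p0_4_7 (Ok2.split 1 (Ok2.split 0 p0_4_4 p0_4_5) p0_4_6))) p0_4_9))) p0_4_12))))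
theorem o0_3 : Ok2 par f3 Box3.unit C0 :=
  (Ok2.part 88882945228033349941255569272303868021047295 (Ok2.part 590295810358705651711 p0_3_0 p0_3_1) p0_3_2)
theorem o0_2 : Ok2 par f2 Box3.unit C0 :=
  (Ok2.part 9444732965739290427391 p0_2_0 p0_2_1)
theorem o0_1 : Ok2 par f1 Box3.unit C0 :=
  (Ok2.part 89202980794122492566142873072579047514439679 (Ok2.part 4722366482869645213695 p0_1_0 p0_1_1) p0_1_2)
theorem o0_0 : Ok2 par f0 Box3.unit C0 :=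
  (Ok2.part 89202980773353285324962934009261162414211071 (Ok2.part 2361183241434822606847 p0_0_0 p0_0_1) p0_0_2)

theorem pt0 : PtAll2 par C0 :=
  PtAll2.of_okD hw (OkD2.cover [f0.dom,f1.dom,f2.dom,f3.dom,f4.dom,f5.dom,f6.dom,f7.dom,f8.dom,f9.dom,f10.dom,f11.dom,f12.dom]
    (.split 0 (.split 0 (.leaf 0) (.split 2 (.leaf 1) (.leaf 2))) (.split 1 (.split 0 (.split 2 (.leaf 3) (.leaf 4)) (.leaf 5)) (.split 0 (.split 2 (.leaf 6) (.split 1 (.leaf 7) (.leaf 8))) (.split 1 (.leaf 9) (.split 0 (.leaf 10) (.split 1 (.leaf 11) (.leaf 12)))))))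
    (by decide +kernel)
    (List.forall_mem_cons.2 ⟨OkD2.of_ok o0_0, (List.forall_mem_cons.2 ⟨OkD2.of_ok o0_1, (List.forall_mem_cons.2 ⟨OkD2.of_ok o0_2, (List.forall_mem_cons.2 ⟨OkD2.of_ok o0_3, (List.forall_mem_cons.2 ⟨OkD2.of_ok o0_4, (List.forall_mem_cons.2 ⟨OkD2.of_ok o0_5, (List.forall_mem_cons.2 ⟨OkD2.of_ok o0_6, (List.forall_mem_cons.2 ⟨OkD2.of_ok o0_7, (List.forall_mem_cons.2 ⟨OkD2.of_ok o0_8, (List.forall_mem_cons.2 ⟨OkD2.of_ok o0_9, (List.forall_mem_cons.2 ⟨OkD2.of_ok o0_10, (List.forall_mem_cons.2 ⟨OkD2.of_ok o0_11, (List.forall_mem_cons.2 ⟨OkD2.of_ok o0_12, (fun _ h => nomatch h)⟩)⟩)⟩)⟩)⟩)⟩)⟩)⟩)⟩)⟩)⟩)⟩)⟩))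

end Crest.Agent.R163.P4
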