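import Crest.Agent.R163.Q3.D.P4.S0
import Crest.Agent.R163.Q3.D.P4.H

set_option autoImplicit false
set_option maxRecDepth 100000
set_option linter.all false
set_option Elab.async false

namespace Crest.Agent.R163.P4

theorem p0_0_0 : Ok2 par f0 Box3.unit (selB2 1 (selB2 1 C0 89202980773353285324962934009261162414211071) 2361183241434822606847) :=
  Ok2.run hw hf0 ⟨234,19,19,13,13⟩ 58
    (.chk false 2048)
    (by decide +kernel)

theorem p0_0_1 : Ok2 par f0 Box3.unit (selB2 0 (selB2 1 C0 89202980773353285324962934009261162414211071) 2361183241434822606847) :=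
  Ok2.run hw hf0 ⟨234,19,19,13,13⟩ 58
    (.chk false 0)
    (by decide +kernel)

theorem p0_0_2 : Ok2 par f0 Box3.unit (selB2 0 C0 89202980773353285324962934009261162414211071) :=
  Ok2.run hw hf0 ⟨265,19,19,13,13⟩ 58
    (.split 2 (.chk false 2048) (.part 5 (.chk false 2048) (.split 2 (.chk false 0) (.chk false 0))))
    (by decide +kernel)

theorem p0_1_0 : Ok2 par f1 Box3.unit (selB2 1 (selB2 1 C0 89202980794122492566142873072579047514439679) 4722366482869645213695) :=
  Ok2.run hw hf1 ⟨237,19,19,13,13⟩ 58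
    (.chk false 2048)
    (by decide +kernel)

theorem p0_1_1 : Ok2 par f1 Box3.unit (selB2 0 (selB2 1 C0 89202980794122492566142873072579047514439679) 4722366482869645213695) :=
  Ok2.run hw hf1 ⟨237,19,19,13,13⟩ 58
    (.chk false 0)
    (by decide +kernel)

theorem p0_1_2 : Ok2 par f1 Box3.unit (selB2 0 C0 89202980794122492566142873072579047514439679) :=
  Ok2.run hw hf1 ⟨338,19,19,13,13⟩ 58
    (.split 1 (.chk false 0) (.split 0 (.chk false 0) (.split 1 (.chk false 0) (.split 0 (.chk false 0) (.chk false 0)))))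
    (by decide +kernel)

theorem p0_2_0 : Ok2 par f2 Box3.unit (selB2 1 C0 9444732965739290427391) :=
  Ok2.run hw hf2 ⟨237,19,19,13,13⟩ 58
    (.chk false 2048)
    (by decide +kernel)

theorem p0_2_1 : Ok2 par f2 Box3.unit (selB2 0 C0 9444732965739290427391) :=
  Ok2.run hw hf2 ⟨237,19,19,13,13⟩ 58
    (.chk false 0)
    (by decide +kernel)

theorem p0_3_0 : Ok2 par f3 Box3.unit (selB2 1 (selB2 1 C0 88882945228033349941255569272303868021047295) 590295810358705651711) :=
  Ok2.run hw hf3 ⟨237,19,19,13,13⟩ 58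
    (.chk false 2048)
    (by decide +kernel)

theorem p0_3_1 : Ok2 par f3 Box3.unit (selB2 0 (selB2 1 C0 88882945228033349941255569272303868021047295) 590295810358705651711) :=
  Ok2.run hw hf3 ⟨237,19,19,13,13⟩ 58
    (.chk false 0)
    (by decide +kernel)

theorem p0_3_2 : Ok2 par f3 Box3.unit (selB2 0 C0 88882945228033349941255569272303868021047295) :=
  Ok2.run hw hf3 ⟨316,19,19,13,13⟩ 58
    (.split 0 (.chk false 0) (.part 31 (.chk false 0) (.split 1 (.part 1 (.chk false 0) (.split 0 (.chk false 0) (.chk false 0))) (.chk false 0))))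
    (by decide +kernel)

theorem p0_4_0 : Ok2 par f4 Box3.unit (selB2 1 (selB2 0 (selB2 1 C0 89041006387468125857534306525254345222520831) 295147905179352825855) 17179869183) :=
  Ok2.run hw hf4 ⟨241,19,19,16,13⟩ 58
    (.chk false 0)
    (by decide +kernel)

theorem p0_4_1 : Ok2 par f4 Box3.unit (selB2 0 (selB2 0 (selB2 1 C0 89041006387468125857534306525254345222520831) 295147905179352825855) 17179869183) :=
  Ok2.run hw hf4 ⟨241,19,19,16,13⟩ 58
    (.chk false 0)
    (by decide +kernel)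

theorem p0_4_2 : Ok2 par f4 Box3.unit (selB2 1 (selB2 1 (selB2 1 C0 89041006387468125857534306525254345222520831) 295147905179352825855) 17179869183) :=
  Ok2.run hw hf4 ⟨241,19,19,16,13⟩ 58
    (.chk false 512)
    (by decide +kernel)

theorem p0_4_3 : Ok2 par f4 Box3.unit (selB2 0 (selB2 1 (selB2 1 C0 89041006387468125857534306525254345222520831) 295147905179352825855) 17179869183) :=
  Ok2.run hw hf4 ⟨241,19,19,16,13⟩ 58
    (.chk false 2048)
    (by decide +kernel)

theorem p0_4_4 : Ok2 par f4 (((((((Box3.unit.r 0).l 1).r 0).l 1).r 2).l 1).l 0) (selB2 0 (selB2 0 (selB2 0 (selB2 0 C0 89041006387468125857534306525254345222520831) 3) 5) 28) :=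
  Ok2.run hw hf4 ⟨488,19,19,16,13⟩ 58
    (.part 1 (.chk false 0) (.split 2 (.chk false 0) (.split 0 (.split 1 (.split 2 (.chk false 0) (.split 0 (.chk false 0) (.chk false 0))) (.chk false 0)) (.chk false 0))))
    (by decide +kernel)

theorem p0_4_5 : Ok2 par f4 (((((((Box3.unit.r 0).l 1).r 0).l 1).r 2).l 1).r 0) (selB2 0 (selB2 0 (selB2 0 (selB2 0 C0 89041006387468125857534306525254345222520831) 3) 5) 28) :=
  Ok2.run hw hf4 ⟨403,19,19,16,13⟩ 58
    (.chk false 0)
    (by decide +kernel)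

theorem p0_4_6 : Ok2 par f4 ((((((Box3.unit.r 0).l 1).r 0).l 1).r 2).r 1) (selB2 0 (selB2 0 (selB2 0 (selB2 0 C0 89041006387468125857534306525254345222520831) 3) 5) 28) :=
  Ok2.run hw hf4 ⟨380,19,19,16,13⟩ 58
    (.chk false 0)
    (by decide +kernel)

theorem p0_4_7 : Ok2 par f4 (((((Box3.unit.r 0).l 1).r 0).l 1).l 2) (selB2 0 (selB2 0 (selB2 0 (selB2 0 C0 89041006387468125857534306525254345222520831) 3) 5) 28) :=
  Ok2.run hw hf4 ⟨363,19,19,16,13⟩ 58
    (.chk false 0)
    (by decide +kernel)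

theorem p0_4_8 : Ok2 par f4 ((((Box3.unit.r 0).l 1).r 0).l 1) (selB2 1 (selB2 0 (selB2 0 (selB2 0 C0 89041006387468125857534306525254345222520831) 3) 5) 28) :=
  Ok2.run hw hf4 ⟨341,19,19,16,13⟩ 58
    (.chk false 0)
    (by decide +kernel)

theorem p0_4_9 : Ok2 par f4 ((((Box3.unit.r 0).l 1).r 0).r 1) (selB2 0 (selB2 0 (selB2 0 C0 89041006387468125857534306525254345222520831) 3) 5) :=
  Ok2.run hw hf4 ⟨333,19,19,16,13⟩ 58
    (.chk false 0)
    (by decide +kernel)

theorem p0_4_10 : Ok2 par f4 (((Box3.unit.r 0).l 1).r 0) (selB2 1 (selB2 0 (selB2 0 C0 89041006387468125857534306525254345222520831) 3) 5) :=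
  Ok2.run hw hf4 ⟨319,19,19,16,13⟩ 58
    (.chk false 0)
    (by decide +kernel)

theorem p0_4_11 : Ok2 par f4 (((Box3.unit.r 0).l 1).l 0) (selB2 0 (selB2 0 C0 89041006387468125857534306525254345222520831) 3) :=
  Ok2.run hw hf4 ⟨311,19,19,16,13⟩ 58
    (.chk false 0)
    (by decide +kernel)

theorem p0_4_12 : Ok2 par f4 ((Box3.unit.r 0).r 1) (selB2 0 (selB2 0 C0 89041006387468125857534306525254345222520831) 3) :=
  Ok2.run hw hf4 ⟨297,19,19,16,13⟩ 58
    (.chk false 0)
    (by decide +kernel)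

theorem p0_4_13 : Ok2 par f4 (Box3.unit.r 0) (selB2 1 (selB2 0 C0 89041006387468125857534306525254345222520831) 3) :=
  Ok2.run hw hf4 ⟨269,19,19,16,13⟩ 58
    (.chk false 0)
    (by decide +kernel)

theorem p0_4_14 : Ok2 par f4 (Box3.unit.l 0) (selB2 0 C0 89041006387468125857534306525254345222520831) :=
  Ok2.run hw hf4 ⟨269,19,19,16,13⟩ 58
    (.chk false 0)
    (by decide +kernel)

theorem p0_5_0 : Ok2 par f5 Box3.unit (selB2 1 (selB2 1 C0 44611614474438393089090836104458713436258303) 68719476735) :=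
  Ok2.run hw hf5 ⟨239,19,19,16,13⟩ 58
    (.chk false 2048)
    (by decide +kernel)

theorem p0_5_1 : Ok2 par f5 Box3.unit (selB2 0 (selB2 1 C0 44611614474438393089090836104458713436258303) 68719476735) :=
  Ok2.run hw hf5 ⟨239,19,19,16,13⟩ 58
    (.chk false 0)
    (by decide +kernel)

theorem p0_5_2 : Ok2 par f5 (((Box3.unit.l 1).l 1).l 2) (selB2 1 (selB2 0 (selB2 0 (selB2 0 C0 44611614474438393089090836104458713436258303) 2053500692592590719) 96159) 1) :=
  Ok2.run hw hf5 ⟨311,19,19,16,13⟩ 58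
    (.chk false 0)
    (by decide +kernel)

theorem p0_5_3 : Ok2 par f5 (((Box3.unit.l 1).l 1).l 2) (selB2 0 (selB2 0 (selB2 0 (selB2 0 C0 44611614474438393089090836104458713436258303) 2053500692592590719) 96159) 1) :=
  Ok2.run hw hf5 ⟨412,19,19,16,13⟩ 58
    (.split 2 (.split 0 (.chk false 0) (.part 5 (.chk false 0) (.split 1 (.chk false 0) (.split 2 (.split 0 (.chk false 0) (.chk false 0)) (.chk false 0))))) (.chk false 0))
    (by decide +kernel)

theorem p0_5_4 : Ok2 par f5 (((Box3.unit.l 1).l 1).r 2) (selB2 0 (selB2 0 (selB2 0 C0 44611614474438393089090836104458713436258303) 2053500692592590719) 96159) :=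
  Ok2.run hw hf5 ⟨378,19,19,16,13⟩ 58
    (.part 14 (.chk false 0) (.split 0 (.split 1 (.chk false 0) (.split 0 (.chk false 0) (.chk false 0))) (.chk false 0)))
    (by decide +kernel)

theorem p0_5_5 : Ok2 par f5 ((Box3.unit.l 1).l 1) (selB2 1 (selB2 0 (selB2 0 C0 44611614474438393089090836104458713436258303) 2053500692592590719) 96159) :=
  Ok2.run hw hf5 ⟨289,19,19,16,13⟩ 58
    (.chk false 1024)
    (by decide +kernel)

theorem p0_5_6 : Ok2 par f5 ((((((Box3.unit.l 1).r 1).l 0).r 2).l 0).l 1) (selB2 0 (selB2 0 (selB2 0 (selB2 0 (selB2 0 (selB2 0 C0 44611614474438393089090836104458713436258303) 2053500692592590719) 51224) 2319) 48) 8) :=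
  Ok2.run hw hf5 ⟨373,19,19,16,13⟩ 58
    (.chk false 0)
    (by decide +kernel)


end Crest.Agent.R163.P4
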